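import Vale.Agent.P281.H64.TK.SpecG
import Vale.Agent.P281.H64.Cov
import Vale.Agent.P281.H603.K.Base

/-!
# P281, project T-K (helper969): block KK, two models at the same fibre
-/

open Set Filter Metric MeasureTheory Vale.Agent.P281 Vale.Agent.P281.H713
open Vale.Agent.P272.K (Chart At IsKahler)
open scoped Topology ContDiff Manifold ComplexConjugate

noncomputable section

namespace Vale.Agent.P281.H969.K

open Vale.Agent.P281.H64.TK
open Vale.Agent.P281.H64 (Cm)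
open Vale.Agent.P281.H603.K

section Top
variable {d : ℕ} {E Γ : Type} [TopologicalSpace E] [Group Γ] [MulAction Γ E]
  [ContinuousConstSMul Γ E]

/-- The sheet `γ • σ i`, as a local homeomorphism. -/
def ph (S : Sheets d E Γ) (γ : Γ) (i : Fin S.N) : OpenPartialHomeomorph (Cm d) E :=
  OpenPartialHomeomorph.ofContinuousOpenRestrict
    (InjOn.toPartialEquiv (fun z => γ • S.σ i z) (ball 0 3)
      ((MulAction.injective γ).comp_injOn (Sh.injOn S i)))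
    (fun z hz => (Sh.contAt_smul S γ i hz).continuousWithinAt)
    (by
      rw [IsOpenMap]
      intro U hU
      obtain ⟨V, hV, rfl⟩ := isOpen_induced_iff.1 hU
      have h1 : ((ball (0 : Cm d) 3).domRestrict fun z => γ • S.σ i z) '' (Subtype.val ⁻¹' V) =
          (fun z => γ • S.σ i z) '' (V ∩ ball 0 3) := by
        ext e
        constructor
        · rintro ⟨⟨z, hz⟩, hzV, rfl⟩
          exact ⟨z, ⟨hzV, hz⟩, rfl⟩
        · rintro ⟨z, ⟨hzV, hz⟩, rfl⟩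
          exact ⟨⟨z, hz⟩, hzV, rfl⟩
      have h2 := Sh.isOpen_image_smul S γ i (hV.inter isOpen_ball) inter_subset_right
      rw [← h1] at h2
      exact h2)
    isOpen_ball

/-- the coordinate near `e` -/
theorem exists_ph (S : Sheets d E Γ) (e : E) : ∃ (γ : Γ) (i : Fin S.N), e ∈ (ph S γ i).target := by
  obtain ⟨γ, i, z, hz, rfl⟩ := S.cover e
  exact ⟨γ, i, z, Sh.mem3 hz, rfl⟩

/-- `E` is a manifold. -/
@[implicit_reducible] def charted (S : Sheets d E Γ) : ChartedSpace (Cm d) E where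
  atlas := {φ | ∃ γ i, φ = (ph S γ i).symm}
  chartAt e := (ph S (exists_ph S e).choose (exists_ph S e).choose_spec.choose).symm
  mem_chart_source e := (exists_ph S e).choose_spec.choose_spec
  chart_mem_atlas _ := ⟨_, _, rfl⟩

theorem locPathConnected (S : Sheets d E Γ) : LocallyPathConnectedSpace E :=
  @ChartedSpace.locallyPathConnectedSpace (Cm d) E _ _ (charted S) _

end Top

theorem clm_sum {d n : ℕ} (L : Cm d →L[ℂ] Cm n) (v : Cm d) (a : Fin n) :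
    L v a = ∑ m : Fin d, L (Pi.single m 1) a * v m := by
  have h13 : v = ∑ m : Fin d, v m • (Pi.single m (1 : ℂ) : Cm d) := by
    funext l
    simp [Finset.sum_apply, Pi.single_apply]
  conv_lhs => rw [h13, map_sum, Finset.sum_apply]
  refine Finset.sum_congr rfl fun m _ => ?_
  rw [map_smul, Pi.smul_apply, smul_eq_mul, mul_comm]

theorem contMDiffAt_of_slice {n p d : ℕ} {Z : Type} [TopologicalSpace Z] [ChartedSpace (Cm n) Z]
    {F : Cm p × Cm d → Z} {t : Cm p} {z : Cm d}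
    (h : ContMDiffAt 𝓘(ℂ, Cm p × Cm d) 𝓘(ℂ, Cm n) ω F (t, z)) :
    ContMDiffAt 𝓘(ℂ, Cm d) 𝓘(ℂ, Cm n) ω (fun u => F (t, u)) z := by
  have h1 : ContMDiffAt 𝓘(ℂ, Cm d) 𝓘(ℂ, Cm p × Cm d) ω (fun u : Cm d => (t, u)) z :=
    ContDiffAt.contMDiffAt (by fun_prop)
  exact ContMDiffAt.comp z (g := F) (f := fun u : Cm d => (t, u)) h h1

set_option linter.unusedSectionVars false

section
variable {n p d : ℕ} {Z Y : Type} [TopologicalSpace Z] [ChartedSpace (Cm n) Z]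
    [IsManifold 𝓘(ℂ, Cm n) ω Z] [TopologicalSpace Y] [ChartedSpace (Cm p) Y] {f : Z → Y}
    {E Γ : Type} [TopologicalSpace E] [Group Γ] [MulAction Γ E] [ContinuousConstSMul Γ E]
    {𝓕 : Fam p d E Γ} {q : Cm p → E → Z} {χ : OpenPartialHomeomorph Y (Cm p)}
    {E' Γ' : Type} [TopologicalSpace E'] [Group Γ'] [MulAction Γ' E'] [ContinuousConstSMul Γ' E']
    {𝓕' : Fam p d E' Γ'} {q' : Cm p → E' → Z} {χ' : OpenPartialHomeomorph Y (Cm p)}

theorem K_aux (M : Model (n := n) f 𝓕 χ q) (M' : Model (n := n) f 𝓕' χ' q') {t : Cm p}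
    (ht : t ∈ 𝓕.T) {t' : Cm p} (ht' : t' ∈ 𝓕'.T) (hy : χ.symm t = χ'.symm t') {τ : E → E'}
    (hτ : Continuous τ) (hq : ∀ e, q' t' (τ e) = q t e) {i : Fin 𝓕.N} {j : Fin 𝓕'.N} {z w : Cm d}
    (hz : z ∈ ball (0 : Cm d) 3) (hw : w ∈ ball (0 : Cm d) 3) {γ : Γ'}
    (he : τ (𝓕.σ i t z) = γ • 𝓕'.σ j t' w) : ∃ θ : Cm d → Cm d, AnalyticAt ℂ θ z ∧ θ z = w ∧
      ∀ᶠ u in 𝓝 z, τ (𝓕.σ i t u) = γ • 𝓕'.σ j t' (θ u) := by
  have hχ' : χ'.symm t' ∈ χ'.source := χ'.map_target (M'.sub ht')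
  have hft : ∀ e, χ' (f (q t e)) = t' := fun e => by
    rw [M.fib t ht, hy, χ'.right_inv (M'.sub ht')]
  have hpt : q t (𝓕.σ i t z) = q' t' (𝓕'.σ j t' w) := by
    rw [← hq, he]
    exact ((M'.eq t' ht' _ _).2 ⟨γ, rfl⟩).symm
  obtain ⟨ζ, hζ, hζw, hζe⟩ := M'.coord j t' ht' w hw
  rw [← hpt] at hζ hζw hζe
  have hqh := contMDiffAt_of_slice (M.hol i t ht z hz)
  have hcomp : ContMDiffAt 𝓘(ℂ, Cm d) 𝓘(ℂ, Cm d) ω (fun u => ζ (q t (𝓕.σ i t u))) z :=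
    ContMDiffAt.comp z (g := ζ) (f := fun u => q t (𝓕.σ i t u)) hζ hqh
  have han : AnalyticAt ℂ (fun u => ζ (q t (𝓕.σ i t u))) z := by
    exact hcomp.contDiffAt.analyticAt
  refine ⟨fun u => ζ (q t (𝓕.σ i t u)), han, hζw, ?_⟩
  -- the group element is locally constant
  have hev : ∀ᶠ u in 𝓝 z, q' t' (𝓕'.σ j t' (ζ (q t (𝓕.σ i t u)))) = q t (𝓕.σ i t u) := by
    have h1 := hqh.continuousAt.eventually hζe
    filter_upwards [h1] with u hu
    have h2 : χ' (f (q t (𝓕.σ i t u))) = t' := hft _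
    rw [h2] at hu
    exact hu
  have hc1 : ContinuousAt (fun u => τ (𝓕.σ i t u)) z :=
    hτ.continuousAt.comp ((𝓕.map_nhds' i t ht z hz).le)
  have hopen : (fun v => γ • 𝓕'.σ j t' v) '' ball 0 3 ∈ 𝓝 (γ • 𝓕'.σ j t' w) :=
    (Sh.isOpen_image_smul (𝓕'.at t' ht') γ j isOpen_ball subset_rfl).mem_nhds ⟨w, hw, rfl⟩
  have h4 : ∀ᶠ u in 𝓝 z, τ (𝓕.σ i t u) ∈ (fun v => γ • 𝓕'.σ j t' v) '' ball 0 3 :=
    hc1.eventually (by
      show ∀ᶠ v in 𝓝 (τ (𝓕.σ i t z)), v ∈ _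
      rw [he]; exact hopen)
  have h5 : ∀ᶠ u in 𝓝 z, ζ (q t (𝓕.σ i t u)) ∈ ball (0 : Cm d) 3 :=
    han.continuousAt.eventually (by
      show ∀ᶠ v in 𝓝 (ζ (q t (𝓕.σ i t z))), v ∈ ball (0 : Cm d) 3
      rw [hζw]; exact isOpen_ball.mem_nhds hw)
  filter_upwards [hev, h4, h5] with u a b c
  obtain ⟨v, hv, hve⟩ := b
  simp only at hve
  have h6 : q' t' (𝓕'.σ j t' v) = q' t' (𝓕'.σ j t' (ζ (q t (𝓕.σ i t u)))) := by
    rw [a, ← hq, ← hve]
    exact (M'.eq t' ht' _ _).2 ⟨γ, rfl⟩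
  obtain ⟨γ₂, hγ₂⟩ := (M'.eq t' ht' _ _).1 h6
  obtain ⟨-, h8⟩ := 𝓕'.inj j t' ht' v hv _ c γ₂ hγ₂
  rw [← hve, h8]

/-- The Jacobian matrix of `z ↦ e (q t (σ i t z))`. -/
def jacF (𝓕 : Fam p d E Γ) (q : Cm p → E → Z) (e : Chart n Z) (i : Fin 𝓕.N) (t : Cm p)
    (z : Cm d) : Matrix (Fin n) (Fin d) ℂ :=
  Matrix.of fun a k => fderiv ℂ (fun u => e (q t (𝓕.σ i t u))) z (Pi.single k 1) a

theorem analyticAt_chart {e : Chart n Z} {g : Cm d → Z} {z : Cm d} (he : At e (g z))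
    (hg : ContMDiffAt 𝓘(ℂ, Cm d) 𝓘(ℂ, Cm n) ω g z) : AnalyticAt ℂ (fun u => e (g u)) z := by
  have h1 : ContMDiffAt 𝓘(ℂ, Cm n) 𝓘(ℂ, Cm n) ω e (g z) :=
    contMDiffAt_of_mem_maximalAtlas (IsManifold.subset_maximalAtlas he.1) he.2
  have h2 : ContMDiffAt 𝓘(ℂ, Cm d) 𝓘(ℂ, Cm n) ω (fun u => e (g u)) z := ContMDiffAt.comp z h1 hg
  exact h2.contDiffAt.analyticAt

theorem analyticAt_chart₂ {e : Chart n Z} {g : Cm p × Cm d → Z} {r : Cm p × Cm d}
    (he : At e (g r)) (hg : ContMDiffAt 𝓘(ℂ, Cm p × Cm d) 𝓘(ℂ, Cm n) ω g r) :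
    AnalyticAt ℂ (fun u => e (g u)) r := by
  have h1 : ContMDiffAt 𝓘(ℂ, Cm n) 𝓘(ℂ, Cm n) ω e (g r) :=
    contMDiffAt_of_mem_maximalAtlas (IsManifold.subset_maximalAtlas he.1) he.2
  have h2 : ContMDiffAt 𝓘(ℂ, Cm p × Cm d) 𝓘(ℂ, Cm n) ω (fun u => e (g u)) r :=
    ContMDiffAt.comp r h1 hg
  exact h2.contDiffAt.analyticAt

omit [ContinuousConstSMul Γ E] in
theorem jacE_inr (M : Model (n := n) f 𝓕 χ q) {i : Fin 𝓕.N} {t : Cm p} (ht : t ∈ 𝓕.T) {z : Cm d}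
    (hz : z ∈ ball (0 : Cm d) 3) {e : Chart n Z} (he : At e (q t (𝓕.σ i t z))) (a : Fin n)
    (k : Fin d) : 𝓕.jacE q e i (t, z) a (Sum.inr k) = jacF 𝓕 q e i t z a k := by
  have h1 := analyticAt_chart₂ (g := fun r : Cm p × Cm d => q r.1 (𝓕.σ i r.1 r.2)) (r := (t, z))
    he (M.hol i t ht z hz)
  have h2 : HasFDerivAt (fun z : Cm d => (t, z)) (ContinuousLinearMap.inr ℂ (Cm p) (Cm d)) z :=
    hasFDerivAt_prodMk_right t z
  have h3 := HasFDerivAt.comp z (g := fun r : Cm p × Cm d => e (q r.1 (𝓕.σ i r.1 r.2)))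
    h1.differentiableAt.hasFDerivAt h2
  show fderiv ℂ (fun r : Cm p × Cm d => e (q r.1 (𝓕.σ i r.1 r.2))) (t, z) (bv (Sum.inr k)) a =
    fderiv ℂ (fun u => e (q t (𝓕.σ i t u))) z (Pi.single k 1) a
  have h4 : (fun u => e (q t (𝓕.σ i t u))) =
      (fun r : Cm p × Cm d => e (q r.1 (𝓕.σ i r.1 r.2))) ∘ fun z : Cm d => (t, z) := rfl
  rw [h4, h3.fderiv]
  rfl

omit [ContinuousConstSMul Γ E] in
/-- The metric of the fibre, in the coordinates of a sheet. -/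
theorem fibW_eq (M : Model (n := n) f 𝓕 χ q)
    {w : Chart n Z → Cm n → Matrix (Fin n) (Fin n) ℂ}
    {W : Fin 𝓕.N → Cm p × Cm d → Matrix (Fin p ⊕ Fin d) (Fin p ⊕ Fin d) ℂ}
    (hW : IsPull w 𝓕 q W) {i : Fin 𝓕.N} {t : Cm p} (ht : t ∈ 𝓕.T) {z : Cm d}
    (hz : z ∈ ball (0 : Cm d) 3) {e : Chart n Z} (he : At e (q t (𝓕.σ i t z))) :
    fibW W t i z = (jacF 𝓕 q e i t z).transpose * w e (e (q t (𝓕.σ i t z))) *
      (jacF 𝓕 q e i t z).map conj := by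
  ext a b
  rw [fibW, Matrix.of_apply, hW i t ht z hz e he]
  simp only [Matrix.mul_apply, Matrix.transpose_apply, Matrix.map_apply,
    jacE_inr M ht hz he]

end

/-- Two models at the same point: the coverings are isomorphic. -/
theorem exists_iso {n p d : ℕ} {Z Y : Type} [TopologicalSpace Z] [ChartedSpace (Cm n) Z]
    [TopologicalSpace Y] [ChartedSpace (Cm p) Y] {f : Z → Y}
    {E Γ : Type} [TopologicalSpace E] [SimplyConnectedSpace E] [Group Γ] [MulAction Γ E]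
    [ContinuousConstSMul Γ E] {𝓕 : Fam p d E Γ} {q : Cm p → E → Z}
    {χ : OpenPartialHomeomorph Y (Cm p)}
    {E' Γ' : Type} [TopologicalSpace E'] [SimplyConnectedSpace E'] [Group Γ'] [MulAction Γ' E']
    [ContinuousConstSMul Γ' E'] {𝓕' : Fam p d E' Γ'} {q' : Cm p → E' → Z}
    {χ' : OpenPartialHomeomorph Y (Cm p)}
    (M : Model (n := n) f 𝓕 χ q) (M' : Model (n := n) f 𝓕' χ' q') {t : Cm p}
    (ht : t ∈ 𝓕.T) {t' : Cm p} (ht' : t' ∈ 𝓕'.T) (hy : χ.symm t = χ'.symm t') :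
    ∃ (τ : E ≃ₜ E') (ρ : Γ ≃* Γ'), (∀ γ e, τ (γ • e) = ρ γ • τ e) ∧
      ∀ e, q' t' (τ e) = q t e := by
  have : LocallyPathConnectedSpace E := locPathConnected (𝓕.at t ht)
  have : LocallyPathConnectedSpace E' := locPathConnected (𝓕'.at t' ht')
  have hχ' : χ'.symm t' ∈ χ'.source := χ'.map_target (M'.sub ht')
  have hcov := M.cov t ht
  have hcov' : IsCoveringMap fun e : E' => (⟨q' t' e, by
      show f (q' t' e) = χ.symm t
      rw [M'.fib t' ht', hy]⟩ : f ⁻¹' {χ.symm t}) := by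
    exact (M'.cov t' ht').homeomorph_comp
      (Homeomorph.setCongr (by rw [hy] : f ⁻¹' {χ'.symm t'} = f ⁻¹' {χ.symm t}))
  obtain ⟨e₀⟩ : Nonempty E := inferInstance
  obtain ⟨e₀', he₀'⟩ : ∃ e₀' : E', q' t' e₀' = q t e₀ := by
    have h1 : χ' (f (q t e₀)) = t' := by rw [M.fib t ht, hy, χ'.right_inv (M'.sub ht')]
    have h2 := M'.surj (q t e₀) (by rw [M.fib t ht, hy]; exact hχ') (by rw [h1]; exact ht')
    rw [h1] at h2
    exact h2
  obtain ⟨τ, ρ, h1, h2⟩ := H64.iso_of_cov (Γ := Γ) (Γ' := Γ') hcov hcov' (fun e e₂ => by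
      rw [← M.eq t ht e e₂, Subtype.ext_iff]) (fun e e₂ => by
      rw [← M'.eq t' ht' e e₂, Subtype.ext_iff]) (fun γ e h => Sh.free (𝓕.at t ht) h)
      (fun γ e h => Sh.free (𝓕'.at t' ht') h) (e₀ := e₀) (e₀' := e₀') (Subtype.ext he₀'.symm)
  exact ⟨τ, ρ, h1, fun e => congrArg Subtype.val (h2 e)⟩

/-- **KK** -/
theorem k : KStmt := by
  intro p d Z Y _ _ _ _ _ _ _ _ f w E Γ _ _ _ _ _ _ 𝓕 q χ E' Γ' _ _ _ _ _ _ 𝓕' q' χ' W W' hd hf
    M M' hw hW hW' t ht t' ht' hy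
  obtain ⟨τ, ρ, h1, h3⟩ := exists_iso M M' ht ht' hy
  refine ⟨τ, ρ, h1, h3, fun i j z hz w hw γ he => ?_, fun i j z hz z' hz' γ θ hθ hθz hev => ?_⟩
  · obtain ⟨θ, a1, a2, a3⟩ := K_aux M M' ht ht' hy τ.continuous h3 hz hw he
    refine ⟨θ, a1, a2, ?_, a3⟩
    -- the inverse map
    have h4 : ∀ e, q t (τ.symm e) = q' t' e := fun e => by rw [← h3, τ.apply_symm_apply]
    have h5 : τ.symm (𝓕'.σ j t' w) = ρ.symm γ⁻¹ • 𝓕.σ i t z := by
      rw [Homeomorph.symm_apply_eq, h1, he, ρ.apply_symm_apply, inv_smul_smul]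
    obtain ⟨θ', b1, b2, b3⟩ := K_aux M' M ht' ht hy.symm τ.symm.continuous h4 hw hz h5
    have h6 : ∀ᶠ u in 𝓝 z, τ.symm (𝓕'.σ j t' (θ u)) = ρ.symm γ⁻¹ • 𝓕.σ i t (θ' (θ u)) :=
      a1.continuousAt.eventually (by rw [a2]; exact b3)
    have hc : ContinuousAt (fun u => θ' (θ u)) z :=
      ContinuousAt.comp (f := θ) (g := θ') (by rw [a2]; exact b1.continuousAt) a1.continuousAt
    have h7 : ∀ᶠ u in 𝓝 z, θ' (θ u) ∈ ball (0 : Cm d) 3 := hc.eventually (by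
      show ∀ᶠ y in 𝓝 (θ' (θ z)), y ∈ ball (0 : Cm d) 3
      rw [a2, b2]; exact isOpen_ball.mem_nhds hz)
    have h8 : (fun u => θ' (θ u)) =ᶠ[𝓝 z] fun u => u := by
      filter_upwards [a3, h6, h7, isOpen_ball.mem_nhds hz] with u a b c d
      rw [Homeomorph.symm_apply_eq, h1, ρ.apply_symm_apply] at b
      rw [b, smul_inv_smul] at a
      exact (Sh.injOn (𝓕.at t ht) i d c (τ.injective a)).symm
    have h9 : HasFDerivAt (fun u => θ' (θ u)) ((fderiv ℂ θ' (θ z)).comp (fderiv ℂ θ z)) z :=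
      HasFDerivAt.comp z (by rw [a2]; exact b1.differentiableAt.hasFDerivAt)
        a1.differentiableAt.hasFDerivAt
    have h10 := h9.unique ((hasFDerivAt_id z).congr_of_eventuallyEq h8)
    have h11 : jac θ' (θ z) * jac θ z = 1 := by
      ext l k
      have h12 := congrFun (congrArg (fun L : Cm d →L[ℂ] Cm d => L (Pi.single k 1)) h10) l
      simp only [ContinuousLinearMap.comp_apply, ContinuousLinearMap.id_apply] at h12
      rw [Matrix.mul_apply, Matrix.one_apply, ← Pi.single_apply, ← h12, clm_sum]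
      exact Finset.sum_congr rfl fun m _ => rfl
    intro h14
    have h15 := congrArg Matrix.det h11
    rw [Matrix.det_mul, h14, mul_zero, Matrix.det_one] at h15
    exact zero_ne_one h15
  · -- the metric
    have hpt : q t (𝓕.σ i t z) = q' t' (𝓕'.σ j t' z') := by
      rw [← h3, hev.self_of_nhds, hθz]
      exact ((M'.eq t' ht' _ _).2 ⟨γ, rfl⟩).symm
    set e : Chart (p + d) Z := chartAt (Cm (p + d)) (q t (𝓕.σ i t z)) with he
    have hAt : At e (q t (𝓕.σ i t z)) := ⟨chart_mem_atlas _ _, mem_chart_source _ _⟩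
    have hAt' : At e (q' t' (𝓕'.σ j t' z')) := hpt ▸ hAt
    rw [fibW_eq M hW ht hz hAt, fibW_eq M' hW' ht' hz' hAt', ← hpt]
    have hE : (fun u => e (q t (𝓕.σ i t u))) =ᶠ[𝓝 z] fun u => e (q' t' (𝓕'.σ j t' (θ u))) := by
      filter_upwards [hev] with u hu
      rw [← h3, hu]
      exact congrArg e ((M'.eq t' ht' _ _).2 ⟨γ, rfl⟩).symm
    have hJ : jacF 𝓕 q e i t z = jacF 𝓕' q' e j t' z' * jac θ z := by
      have h4 : AnalyticAt ℂ (fun u => e (q' t' (𝓕'.σ j t' u))) z' :=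
        analyticAt_chart (g := fun u => q' t' (𝓕'.σ j t' u)) hAt'
          (contMDiffAt_of_slice (M'.hol j t' ht' z' hz'))
      have h5 : HasFDerivAt (fun u => e (q' t' (𝓕'.σ j t' (θ u))))
          ((fderiv ℂ (fun u => e (q' t' (𝓕'.σ j t' u))) z').comp (fderiv ℂ θ z)) z :=
        HasFDerivAt.comp z (g := fun u => e (q' t' (𝓕'.σ j t' u)))
          (by rw [hθz]; exact h4.differentiableAt.hasFDerivAt) hθ.differentiableAt.hasFDerivAt
      ext a k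
      show fderiv ℂ (fun u => e (q t (𝓕.σ i t u))) z (Pi.single k 1) a = _
      rw [hE.fderiv_eq, h5.fderiv, ContinuousLinearMap.comp_apply, Matrix.mul_apply, clm_sum]
      exact Finset.sum_congr rfl fun m _ => rfl
    rw [hJ]
    simp only [Matrix.transpose_mul, Matrix.map_mul, Matrix.mul_assoc]

end Vale.Agent.P281.H969.K
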