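import Vale.Agent.P281.H969.K.FibNA
import Vale.Agent.P281.H64.TK.SpecN
import Vale.Agent.P281.H308.Bir.Main
import Vale.Agent.P281.H383.Gen.Ext

/-!
# P281, project T-KN, block KN1 = `FibNStmt` (helper969): closed 1-forms of `F` on the universal
covering of the fibre `f₁⁻¹(y₁)`
-/

open Set Filter Metric Vale.Agent.P281 Vale.Agent.P272.K
open scoped Topology ContDiff Manifold ComplexConjugate ComplexOrder

set_option linter.unusedSectionVars false

noncomputable section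

namespace Vale.Agent.P281.H969.K.FibN

open Vale.Agent.P281.H64.TK Vale.Agent.P281.H125.KH.Sh Vale.Agent.P281.H125.Fib

/-! ### Open conditions -/

/-- surjectivity is an open condition -/
theorem surj_ev {V W X : Type} [NormedAddCommGroup V] [NormedSpace ℂ V] [NormedAddCommGroup W]
    [NormedSpace ℂ W] [FiniteDimensional ℂ W] [TopologicalSpace X] {A : X → (V →L[ℂ] W)} {x : X}
    (hA : ContinuousAt A x) (h : Function.Surjective (A x)) :
    ∀ᶠ y in 𝓝 x, Function.Surjective (A y) := by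
  have : CompleteSpace W := FiniteDimensional.complete ℂ W
  obtain ⟨B, hB⟩ := LinearMap.exists_rightInverse_of_surjective (A x : V →ₗ[ℂ] W)
    (LinearMap.range_eq_top.2 h)
  set B' : W →L[ℂ] V := LinearMap.toContinuousLinearMap B with hB'
  have h1 : ContinuousAt (fun y => (A y).comp B') x := by
    have h2 : Continuous fun L : V →L[ℂ] W => L.comp B' :=
      ((ContinuousLinearMap.compL ℂ W V W).flip B').continuous
    exact h2.continuousAt.comp hA
  have h3 : (A x).comp B' = 1 := by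
    refine ContinuousLinearMap.ext fun ξ => ?_
    exact congrArg (fun L : W →ₗ[ℂ] W => L ξ) hB
  have h4 : ∀ᶠ y in 𝓝 x, IsUnit ((A y).comp B') := by
    refine h1.eventually (p := fun L : W →L[ℂ] W => IsUnit L) ?_
    show ∀ᶠ L in 𝓝 ((A x).comp B'), IsUnit L
    rw [h3]
    exact Units.isOpen.mem_nhds isUnit_one
  filter_upwards [h4] with y hy
  obtain ⟨U, hU⟩ := hy
  intro w
  refine ⟨B' (((U⁻¹ : (W →L[ℂ] W)ˣ) : W →L[ℂ] W) w), ?_⟩
  have h5 : (U : W →L[ℂ] W) * ((U⁻¹ : (W →L[ℂ] W)ˣ) : W →L[ℂ] W) = 1 := Units.mul_inv U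
  have h6 := congrArg (fun L : W →L[ℂ] W => L w) h5
  rw [hU] at h6
  exact h6

theorem det_analyticAt {X : Type} [NormedAddCommGroup X] [NormedSpace ℂ X] {d : ℕ}
    {M : X → Matrix (Fin d) (Fin d) ℂ} {x : X} (h : ∀ i j, AnalyticAt ℂ (fun x => M x i j) x) :
    AnalyticAt ℂ (fun x => (M x).det) x := by
  have h1 : (fun x => (M x).det) = fun x => ∑ σ : Equiv.Perm (Fin d),
      ((Equiv.Perm.sign σ : ℤ) : ℂ) * ∏ i, M x (σ i) i := by
    funext x
    rw [Matrix.det_apply']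
  rw [h1]
  refine Finset.analyticAt_fun_sum _ fun σ _ => ?_
  exact analyticAt_const.mul (Finset.analyticAt_fun_prod _ fun i _ => h _ _)

theorem jac_analyticAt {d : ℕ} {v : Cm d → Cm d} {z : Cm d} (hv : AnalyticAt ℂ v z) :
    AnalyticAt ℂ (fun y => (H64.TK.jac v y).det) z := by
  refine det_analyticAt (M := fun y => H64.TK.jac v y) fun l k => ?_
  exact (((ContinuousLinearMap.proj (R := ℂ) (φ := fun _ : Fin d => ℂ) l).comp
    (ContinuousLinearMap.apply ℂ (Cm d) (Pi.single k (1 : ℂ) : Cm d))).analyticAt _).comp hv.fderiv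

section
variable {d : ℕ} {F : Type} [TopologicalSpace F] [ChartedSpace (Cm d) F]

theorem coef_analyticAt {x : F} {φ : Fin d → F → ℂ} (hφ : ∀ a, J.HolAt (Cm d) (φ a) x) :
    AnalyticAt ℂ (coef x φ) (chartAt (Cm d) x x) := by
  refine det_analyticAt (M := fun v => Matrix.of fun a b =>
    fderiv ℂ (fun u => φ a ((chartAt (Cm d) x).symm u)) v (Pi.single b 1)) fun a b => ?_
  have h1 : AnalyticAt ℂ (fun u => φ a ((chartAt (Cm d) x).symm u)) (chartAt (Cm d) x x) :=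
    (contDiffAt_chart (hφ a)).analyticAt
  exact ((ContinuousLinearMap.apply ℂ ℂ (Pi.single b (1 : ℂ) : Cm d)).analyticAt _).comp h1.fderiv

/-- the rank of the Gauss map near `x` -/
theorem gauss_ev {r : ℕ} {x : F} {φ : Fin (r + 1) → Fin d → F → ℂ}
    (hφ : ∀ k a, J.HolAt (Cm d) (φ k a) x) (h0 : coef x (φ 0) (chartAt (Cm d) x x) ≠ 0)
    (hsurj : Function.Surjective fun (ξ : Cm d) (k : Fin r) =>
      fderiv ℂ (fun v => coef x (φ k.succ) v / coef x (φ 0) v) (chartAt (Cm d) x x) ξ) :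
    ∀ᶠ v in 𝓝 (chartAt (Cm d) x x), coef x (φ 0) v ≠ 0 ∧
      Function.Surjective fun (ξ : Cm d) (k : Fin r) =>
        fderiv ℂ (fun v => coef x (φ k.succ) v / coef x (φ 0) v) v ξ := by
  have h1 : ∀ k, AnalyticAt ℂ (coef x (φ k)) (chartAt (Cm d) x x) := fun k =>
    coef_analyticAt (hφ k)
  have h2 : ContinuousAt (fun v => (ContinuousLinearMap.pi fun k : Fin r =>
      fderiv ℂ (fun v => coef x (φ k.succ) v / coef x (φ 0) v) v : Cm d →L[ℂ] (Fin r → ℂ)))
      (chartAt (Cm d) x x) := by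
    have h3 : ContinuousAt (fun (v : Cm d) (k : Fin r) =>
        fderiv ℂ (fun v => coef x (φ k.succ) v / coef x (φ 0) v) v) (chartAt (Cm d) x x) :=
      continuousAt_pi.2 fun k => ((h1 k.succ).fun_div (h1 0) h0).fderiv.continuousAt
    have h4 : Continuous fun L : Fin r → (Cm d →L[ℂ] ℂ) =>
        (ContinuousLinearMap.pi L : Cm d →L[ℂ] (Fin r → ℂ)) :=
      (ContinuousLinearMap.piEquivL ℂ (Cm d) (fun _ : Fin r => ℂ)).continuous
    exact h4.continuousAt.comp h3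
  filter_upwards [(h1 0).continuousAt.eventually_ne h0, surj_ev h2 hsurj] with v a1 a2
  exact ⟨a1, a2⟩

end

/-! ### The Gauss map of the covering -/

section
variable {d : ℕ} {F : Type} [TopologicalSpace F] [ChartedSpace (Cm d) F]
  [IsManifold 𝓘(ℂ, Cm d) ω F] {E Γ : Type} [TopologicalSpace E] [Group Γ] [MulAction Γ E]
  [ContinuousConstSMul Γ E] [SimplyConnectedSpace E] {S : Sheets d E Γ} {π : E → F}

/-- `π` in a chart of `F` -/
theorem chart_diff (hπ : PiW S π) (x : F) {j : Fin S.N} {y : Cm d} (hy : y ∈ ball (0 : Cm d) 3)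
    (hs : π (S.σ j y) ∈ (chartAt (Cm d) x).source) :
    DifferentiableAt ℂ (fun y => chartAt (Cm d) x (π (S.σ j y))) y := by
  have hM : IsManifold 𝓘(ℂ, Cm d) 1 F := IsManifold.of_le (n := ω) le_top
  have h1 : MDifferentiableAt 𝓘(ℂ, Cm d) 𝓘(ℂ, Cm d) (chartAt (Cm d) x) (π (S.σ j y)) :=
    mdifferentiableAt_atlas (chart_mem_atlas (Cm d) x) hs
  have h3 : HasMFDerivAt 𝓘(ℂ, Cm d) 𝓘(ℂ, Cm d) (fun y => chartAt (Cm d) x (π (S.σ j y))) y
      ((mfderiv 𝓘(ℂ, Cm d) 𝓘(ℂ, Cm d) (chartAt (Cm d) x) (π (S.σ j y))).comp (D S π j y)) :=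
    HasMFDerivAt.comp y h1.hasMFDerivAt (hπ.hasMFDerivAt hy)
  exact h3.hasFDerivAt.differentiableAt

theorem chart_inj (hπ : PiW S π) (x : F) {j : Fin S.N} {y : Cm d} (hy : y ∈ ball (0 : Cm d) 3)
    (hs : π (S.σ j y) ∈ (chartAt (Cm d) x).source) (hinj : Function.Injective (D S π j y)) :
    Function.Injective (fderiv ℂ (fun y => chartAt (Cm d) x (π (S.σ j y))) y) := by
  have h4 := chart_diff hπ x hy hs
  set ch := chartAt (Cm d) x with hch
  have hM : IsManifold 𝓘(ℂ, Cm d) 1 F := IsManifold.of_le (n := ω) le_top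
  have h2 : MDifferentiableAt 𝓘(ℂ, Cm d) 𝓘(ℂ, Cm d) ch.symm (ch (π (S.σ j y))) :=
    mdifferentiableAt_atlas_symm (chart_mem_atlas (Cm d) x) (ch.map_source hs)
  have h5 : (fun y => π (S.σ j y)) =ᶠ[𝓝 y] ch.symm ∘ fun y => ch (π (S.σ j y)) := by
    filter_upwards [(hπ.continuousAt hy).eventually (ch.open_source.mem_nhds hs)] with u hu
    exact (ch.left_inv hu).symm
  have h6 : D S π j y = (mfderiv 𝓘(ℂ, Cm d) 𝓘(ℂ, Cm d) ch.symm (ch (π (S.σ j y)))).comp
      (fderiv ℂ (fun y => ch (π (S.σ j y))) y) :=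
    ((HasMFDerivAt.comp y h2.hasMFDerivAt
      h4.hasFDerivAt.hasMFDerivAt).congr_of_eventuallyEq h5).mfderiv
  intro ξ ξ' hξ
  have h7 : D S π j y ξ = D S π j y ξ' := by
    have a1 : ∀ ξ : Cm d, D S π j y ξ =
        (mfderiv 𝓘(ℂ, Cm d) 𝓘(ℂ, Cm d) ch.symm (ch (π (S.σ j y)))
          (fderiv ℂ (fun y => ch (π (S.σ j y))) y ξ) : Cm d) := fun ξ =>
      congrArg (fun L : Cm d →L[ℂ] Cm d => L ξ) h6
    have e1 := a1 ξ
    have e2 := a1 ξ'
    rw [hξ] at e1
    exact e1.trans e2.symm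
  exact hinj h7

/-- a function in a chart of `F` -/
theorem prim_compW (hπ : PiW S π) (x : F) {j : Fin S.N} {y : Cm d} (hy : y ∈ ball (0 : Cm d) 3)
    (hs : π (S.σ j y) ∈ (chartAt (Cm d) x).source) {φ : F → ℂ}
    (hφ : J.HolAt (Cm d) φ (π (S.σ j y))) (ξ : Cm d) :
    J.dif (Cm d) φ (π (S.σ j y)) (D S π j y ξ) =
      fderiv ℂ (fun u => φ ((chartAt (Cm d) x).symm u)) (chartAt (Cm d) x (π (S.σ j y)))
        (fderiv ℂ (fun y => chartAt (Cm d) x (π (S.σ j y))) y ξ) := by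
  have h1 := chart_diff hπ x hy hs
  set ch := chartAt (Cm d) x with hch
  have hM : IsManifold 𝓘(ℂ, Cm d) 1 F := IsManifold.of_le (n := ω) le_top
  have h2 : MDifferentiableAt 𝓘(ℂ, Cm d) 𝓘(ℂ, Cm d) ch.symm (ch (π (S.σ j y))) :=
    mdifferentiableAt_atlas_symm (chart_mem_atlas (Cm d) x) (ch.map_source hs)
  have h3 : MDifferentiableAt 𝓘(ℂ, Cm d) 𝓘(ℂ, ℂ) φ (ch.symm (ch (π (S.σ j y)))) := by
    rw [ch.left_inv hs]
    exact hφ.mdifferentiableAt (by simp)
  have h4 : DifferentiableAt ℂ (fun u => φ (ch.symm u)) (ch (π (S.σ j y))) :=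
    (HasMFDerivAt.comp _ h3.hasMFDerivAt h2.hasMFDerivAt).hasFDerivAt.differentiableAt
  have h5 := h4.hasFDerivAt.comp y h1.hasFDerivAt
  have h6 : (fun y => φ (π (S.σ j y))) =ᶠ[𝓝 y]
      (fun u => φ (ch.symm u)) ∘ fun y => ch (π (S.σ j y)) := by
    filter_upwards [(hπ.continuousAt hy).eventually (ch.open_source.mem_nhds hs)] with u hu
    show φ (π (S.σ j u)) = φ (ch.symm (ch (π (S.σ j u))))
    rw [ch.left_inv hu]
  have h7 := (h5.congr_of_eventuallyEq h6).unique (hπ.hasFDerivAt_comp hy hφ)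
  have h8 := congrArg (fun L : Cm d →L[ℂ] ℂ => L ξ) h7
  exact h8.symm

/-- **The Gauss map of the fibre and of the covering**, at a point where `π` is an immersion -/
theorem gaussAtW (hπ : PiW S π) {r : ℕ} (x : F) {j : Fin S.N} {z : Cm d}
    (hz3 : z ∈ ball (0 : Cm d) 3) (hx : π (S.σ j z) ∈ (chartAt (Cm d) x).source)
    (hinj : Function.Injective (D S π j z)) (φ : Fin (r + 1) → Fin d → F → ℂ)
    (η : Fin (r + 1) → Fin d → F → (Cm d →L[ℂ] ℂ)) (hη : ∀ k a, IsCl (η k a))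
    (hφ : ∀ k a, ∀ᶠ x' in 𝓝 (π (S.σ j z)),
      J.HolAt (Cm d) (φ k a) x' ∧ η k a x' = J.dif (Cm d) (φ k a) x')
    (h0 : coef x (φ 0) (chartAt (Cm d) x (π (S.σ j z))) ≠ 0)
    (hsurj : Function.Surjective fun (ξ : Cm d) (k : Fin r) =>
      fderiv ℂ (fun v => coef x (φ k.succ) v / coef x (φ 0) v)
        (chartAt (Cm d) x (π (S.σ j z))) ξ) :
    S.GaussAt r j z := by
  choose g c hg hg' using fun k a => hπ.exists_add (hη k a)
  set ch := chartAt (Cm d) x with hch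
  set v : Cm d → Cm d := fun y => ch (π (S.σ j y)) with hv
  have hcσ := hπ.continuousAt (j := j) hz3
  have hsrc : ∀ᶠ y in 𝓝 z, π (S.σ j y) ∈ ch.source :=
    hcσ.eventually (ch.open_source.mem_nhds hx)
  have hev : ∀ k a, ∀ᶠ y in 𝓝 z, J.HolAt (Cm d) (φ k a) (π (S.σ j y)) ∧
      η k a (π (S.σ j y)) = J.dif (Cm d) (φ k a) (π (S.σ j y)) := fun k a =>
    hcσ.eventually (p := fun x' => J.HolAt (Cm d) (φ k a) x' ∧
      η k a x' = J.dif (Cm d) (φ k a) x') (hφ k a)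
  -- the minors
  have hmin : ∀ k, ∀ᶠ y in 𝓝 z, S.minor (fun e a => g k a e) j y =
      coef x (φ k) (v y) * (H64.TK.jac v y).det := by
    intro k
    filter_upwards [hsrc, eventually_all.2 (hev k), isOpen_ball.mem_nhds hz3] with y h1 h2 h3
    rw [Sheets.minor, coef, ← Matrix.det_mul, H64.TK.jac]
    congr 1
    rw [← matrix_comp (fun a => fderiv ℂ (fun u => φ k a (ch.symm u)) (v y)) (fderiv ℂ v y)]
    ext a b
    simp only [Matrix.of_apply]
    rw [dd, (hg' k a j y h3).fderiv, ContinuousLinearMap.comp_apply, (h2 a).2]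
    exact prim_compW hπ x h3 h1 (h2 a).1 _
  have hvi := chart_inj hπ x hz3 hsrc.self_of_nhds hinj
  have hvd := chart_diff hπ x hz3 hsrc.self_of_nhds
  have hdet : ∀ᶠ y in 𝓝 z, (H64.TK.jac v y).det ≠ 0 := by
    have h1 : ∀ᶠ y in 𝓝 z, DifferentiableAt ℂ v y := by
      filter_upwards [hsrc, isOpen_ball.mem_nhds hz3] with y h1 h3
      exact chart_diff hπ x h3 h1
    obtain ⟨ρ, hρ, hb⟩ := Metric.eventually_nhds_iff_ball.1 h1
    have h2 : AnalyticAt ℂ v z := MF.analyticAt_of_differentiableOn isOpen_ball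
      (fun y hy => (hb y hy).differentiableWithinAt) (mem_ball_self hρ)
    exact (jac_analyticAt h2).continuousAt.eventually_ne (det_jac_ne_zero hvi)
  have hvi' : Function.Bijective (fderiv ℂ v z) := by
    obtain ⟨L, hL⟩ := exists_equiv hvi
    have h1 : fderiv ℂ v z = (L : Cm d →L[ℂ] Cm d) := hL.symm
    rw [h1]
    exact L.bijective
  -- the ratios
  have hRd : ∀ k : Fin r, DifferentiableAt ℂ (fun v => coef x (φ k.succ) v / coef x (φ 0) v)
      (v z) := by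
    intro k
    by_contra hcon
    obtain ⟨ξ, hξ⟩ := hsurj fun _ => 1
    have h1 := congrFun hξ k
    simp only at h1
    rw [fderiv_zero_of_not_differentiableAt hcon] at h1
    simp at h1
  refine ⟨fun k e a => g k a e, fun k a => ⟨c k a, hg k a⟩, ?_, ?_⟩
  · rw [(hmin 0).self_of_nhds]
    exact mul_ne_zero h0 hdet.self_of_nhds
  · have hder : ∀ (k : Fin r) (ξ : Cm d),
        fderiv ℂ (fun u => S.minor (fun e a => g k.succ a e) j u /
          S.minor (fun e a => g 0 a e) j u) z ξ =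
        fderiv ℂ (fun v => coef x (φ k.succ) v / coef x (φ 0) v) (v z) (fderiv ℂ v z ξ) := by
      intro k ξ
      have h1 : (fun u => S.minor (fun e a => g k.succ a e) j u /
          S.minor (fun e a => g 0 a e) j u) =ᶠ[𝓝 z]
          (fun v => coef x (φ k.succ) v / coef x (φ 0) v) ∘ v := by
        filter_upwards [hmin k.succ, hmin 0, hdet] with y a1 a2 a3
        rw [a1, a2, mul_div_mul_right _ _ a3]
        rfl
      rw [h1.fderiv_eq, ((hRd k).hasFDerivAt.comp z hvd.hasFDerivAt).fderiv]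
      rfl
    intro y
    obtain ⟨ξ, hξ⟩ := hsurj y
    obtain ⟨ξ', rfl⟩ := hvi'.2 ξ
    refine ⟨ξ', ?_⟩
    rw [← hξ]
    funext k
    exact hder k ξ'

end

/-- a modification is onto -/
theorem surj_modif {n : ℕ} {X X₁ : Type} [TopologicalSpace X] [ChartedSpace (Cm n) X]
    [TopologicalSpace X₁] [ChartedSpace (Cm n) X₁] {u : X₁ → X}
    (hu : H713.TZ.S.IsModif (Cm n) u) : Function.Surjective u := by
  obtain ⟨-, -, hp, U, -, hUd, -, h1⟩ := hu
  have h2 : U ⊆ range u := fun x hx => (h1 x hx).exists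
  have h3 : Dense (range u) := hUd.mono h2
  rw [← range_eq_univ, ← hp.isClosedMap.isClosed_range.closure_eq]
  exact h3.closure_eq

/-- **KN1** -/
theorem fibN : FibNStmt := by
  intro p d r X Y X₁ Y₁ _ _ _ _ _ _ _ _ _ _ _ _ _ _ _ _ f f₁ u v S S₁ y y₁ F _ _ i hd hsq hAB hG
  obtain ⟨E₀, Γ₀, tE₀, t2₀, sc₀, gΓ₀, aΓ₀, cΓ₀, 𝓕₀, q₀, M₀, ht₀, -⟩ :=
    hAB p d X Y f S hd hsq.hol hsq.proper y hsq.out
  have hyy : (chartAt (Cm p) y).symm (chartAt (Cm p) y y) = y :=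
    (chartAt (Cm p) y).left_inv (mem_chart_source _ y)
  have hfd : FD (p + d) (𝓕₀.at _ ht₀) (q₀ (chartAt (Cm p) y y)) i :=
    fd_of_model hsq.proper M₀ ht₀ (by rw [hyy]; exact hsq.out) (by rw [hyy]; exact hsq.fibre)
      hsq.inj
  have hFc : CompactSpace F := hsq.fibre.compact
  have hFn : ConnectedSpace F := hsq.fibre.connected
  have hFm : IsManifold 𝓘(ℂ, Cm d) ω F := hsq.fibre.manifold
  have hri : range i = f ⁻¹' {y} := by rw [hfd.range_eq, range_of_model M₀ ht₀, hyy]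
  obtain ⟨E, Γ, tE, t2, sc, gΓ, aΓ, cΓ, 𝓕, q, M, ht, -⟩ :=
    hAB p d X₁ Y₁ f₁ S₁ hd hsq.hol₁ hsq.proper₁ y₁ hsq.out₁
  have hyy₁ : (chartAt (Cm p) y₁).symm (chartAt (Cm p) y₁ y₁) = y₁ :=
    (chartAt (Cm p) y₁).left_inv (mem_chart_source _ y₁)
  have hqd := qd_of_model M ht
  have hrq : range (q (chartAt (Cm p) y₁ y₁)) = f₁ ⁻¹' {y₁} := by
    rw [range_of_model M ht, hyy₁]
  set Q := q (chartAt (Cm p) y₁ y₁) with hQ
  have hvy : v y₁ = y := by
    have h1 : y₁ ∈ v ⁻¹' {y} := by rw [hsq.pre]; rfl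
    exact h1
  have hex : ∀ e, ∃ x, i x = u (Q e) := by
    intro e
    have h1 : u (Q e) ∈ f ⁻¹' {y} := by
      have h2 : f₁ (Q e) = y₁ := by
        have h3 : Q e ∈ range Q := ⟨e, rfl⟩
        rw [hrq] at h3
        exact h3
      show f (u (Q e)) = y
      rw [hsq.comm, h2, hvy]
    rw [← hri] at h1
    exact h1
  choose π hπ using hex
  have hcu : ContMDiff 𝓘(ℂ, Cm (p + d)) 𝓘(ℂ, Cm (p + d)) ω u := hsq.modif.2.1
  have hemb : Topology.IsClosedEmbedding i := hsq.fibre.hol.continuous.isClosedEmbedding hsq.inj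
  have hcont : Continuous π := by
    rw [hemb.isInducing.continuous_iff]
    have h1 : i ∘ π = u ∘ Q := funext hπ
    rw [h1]
    exact hcu.continuous.comp hqd.Qcont
  have hinv : ∀ (γ : Γ) e, π (γ • e) = π e := by
    intro γ e
    apply hsq.inj
    rw [hπ, hπ]
    exact congrArg u ((hqd.Qeq e (γ • e)).2 ⟨γ, rfl⟩).symm
  have hqm : ∀ j, ∀ z ∈ ball (0 : Cm d) 3, MDifferentiableAt 𝓘(ℂ, Cm d) 𝓘(ℂ, Cm (p + d))
      (fun y => Q ((𝓕.at _ ht).σ j y)) z := fun j z hz =>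
    (hqd.hol j z hz).mdifferentiableAt (by simp)
  have hder : ∀ j, ∀ z ∈ ball (0 : Cm d) 3,
      MDifferentiableAt 𝓘(ℂ, Cm d) 𝓘(ℂ, Cm d) (fun y => π ((𝓕.at _ ht).σ j y)) z := by
    intro j z hz
    refine mdiff_lift (n := p + d) (i := i) (w := fun y => u (Q ((𝓕.at _ ht).σ j y)))
      (hsq.fibre.hol _) (hsq.fibre.immersion _)
      (hcont.continuousAt.comp ((𝓕.at _ ht).map_nhds j z hz).le) ?_ fun y => hπ _
    exact (HasMFDerivAt.comp z ((hcu _).mdifferentiableAt (by simp)).hasMFDerivAt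
      (hqm j z hz).hasMFDerivAt).mdifferentiableAt
  have hW : PiW (𝓕.at _ ht) π := ⟨hcont, hinv, hder⟩
  -- the point
  obtain ⟨x, φ, a1, a2, a3⟩ := hG
  choose hφ1 η hη1 hη2 using a1
  have hFT : T2Space F := T2Space.of_injective_continuous hsq.inj hsq.fibre.hol.continuous
  have hdense : Dense (i ⁻¹' (u '' H64.Gen.excSet (Cm (p + d)) u))ᶜ :=
    H383.Gen.dense_compl_small (H308.Bir.small_of_small2 hsq.small)
  have hnear : ∀ᶠ x' in 𝓝 x, x' ∈ (chartAt (Cm d) x).source ∧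
      (∀ k a, ∀ᶠ x'' in 𝓝 x', J.HolAt (Cm d) (φ k a) x'' ∧
        η k a x'' = J.dif (Cm d) (φ k a) x'') ∧
      (coef x (φ 0) (chartAt (Cm d) x x') ≠ 0 ∧
        Function.Surjective fun (ξ : Cm d) (k : Fin r) =>
          fderiv ℂ (fun v => coef x (φ k.succ) v / coef x (φ 0) v) (chartAt (Cm d) x x') ξ) := by
    have e1 : ∀ᶠ x' in 𝓝 x, x' ∈ (chartAt (Cm d) x).source :=
      (chartAt (Cm d) x).open_source.mem_nhds (mem_chart_source _ x)
    have e2 : ∀ᶠ x' in 𝓝 x, ∀ k a, ∀ᶠ x'' in 𝓝 x', J.HolAt (Cm d) (φ k a) x'' ∧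
        η k a x'' = J.dif (Cm d) (φ k a) x'' :=
      eventually_all.2 fun k => eventually_all.2 fun a =>
        ((holAt_eventually (hφ1 k a)).and (hη1 k a)).eventually_nhds
    have e3 := ((chartAt (Cm d) x).continuousAt (mem_chart_source _ x)).eventually
      (gauss_ev (fun k a => hφ1 k a) a2 a3)
    filter_upwards [e1, e2, e3] with x' b1 b2 b3
    exact ⟨b1, b2, b3⟩
  obtain ⟨x', hx'N, b1, b2, b3, b4⟩ := hdense.inter_nhds_nonempty hnear
  obtain ⟨z₁, hz₁⟩ := surj_modif hsq.modif (i x')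
  have hz₁e : Function.Bijective (mfderiv 𝓘(ℂ, Cm (p + d)) 𝓘(ℂ, Cm (p + d)) u z₁) := by
    by_contra hcon
    exact hx'N ⟨z₁, hcon, hz₁⟩
  have hz₁f : f₁ z₁ = y₁ := by
    have h1 : v (f₁ z₁) = y := by
      rw [← hsq.comm, hz₁]
      exact hsq.fibre.fibre x'
    have h2 : f₁ z₁ ∈ v ⁻¹' {y} := h1
    rw [hsq.pre] at h2
    exact h2
  have hz₁r : z₁ ∈ range Q := by rw [hrq]; exact hz₁f
  obtain ⟨j, z, hz, hjz⟩ := hqd.exists_sheet hz₁r
  have hz3 : z ∈ ball (0 : Cm d) 3 := mem_ball_zero_iff.2 (by linarith)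
  have hπx : π ((𝓕.at _ ht).σ j z) = x' := by
    apply hsq.inj
    rw [hπ, hjz, hz₁]
  have hinj : Function.Injective (D (𝓕.at _ ht) π j z) := by
    refine inj_lift (n := p + d) (m := p + d) (i := i) (u := u)
      (q := fun y => Q ((𝓕.at _ ht).σ j y)) ((hsq.fibre.hol _).mdifferentiableAt (by simp))
      ((hcu _).mdifferentiableAt (by simp)) (hder j z hz3) (hqm j z hz3) (fun y => hπ _) ?_
      (hqd.imm hz3)
    show Function.Injective (mfderiv 𝓘(ℂ, Cm (p + d)) 𝓘(ℂ, Cm (p + d)) u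
      (Q ((𝓕.at _ ht).σ j z)))
    rw [hjz]
    exact hz₁e.1
  have hres := gaussAtW (r := r) hW x hz3 (by rw [hπx]; exact b1) hinj φ η hη2
    (fun k a => by rw [hπx]; exact b2 k a) (by rw [hπx]; exact b3) (by rw [hπx]; exact b4)
  exact ⟨E, Γ, tE, t2, sc, gΓ, aΓ, cΓ, 𝓕, q, chartAt (Cm p) y₁, _, ht, M, hyy₁, j, z, hz3, hres⟩

end Vale.Agent.P281.H969.K.FibN
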