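import Vale.Agent.P281.H64.Gen.Spec
import Vale.Agent.P281.H150.Gen.SThin
import Vale.Agent.P281.H383.Gen.Ext

/-!
# P281, project T-K (helper969): a set which is analytic in the complement of a small closed set

`D` is locally, in the connected set `Sᶜ`, the set of common zeros of holomorphic functions; if `D` is
not everything, then `S ∪ D` is small.
-/

open Set Filter Metric Vale.Agent.P281 Vale.Agent.P281.J Vale.Agent.P281.MF
open Vale.Agent.P281.H64.Thin (IsThinSet)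
open Vale.Agent.P281.H64.Gen (IsSmallSet)
open Vale.Agent.P281.H64 (Cm)
open Vale.Agent.P281.H150.Gen
open scoped Topology ContDiff Manifold

noncomputable section

namespace Vale.Agent.P281.H969.K

variable {p : ℕ} {Y : Type} [TopologicalSpace Y] [ChartedSpace (Cm p) Y]
  [IsManifold 𝓘(ℂ, Cm p) ω Y]

/-- Near a point the identity theorem holds for all the functions holomorphic on `U`. -/
theorem exists_conn {U : Set Y} (hU : IsOpen U) {y₀ : Y} (hy₀ : y₀ ∈ U) :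
    ∃ U' : Set Y, IsOpen U' ∧ y₀ ∈ U' ∧ U' ⊆ U ∧ ∀ g : Y → ℂ, (∀ y ∈ U, HolAt (Cm p) g y) →
      (∃ y ∈ U', ∀ᶠ z in 𝓝 y, g z = 0) → ∀ z ∈ U', g z = 0 := by
  set φ := chartAt (Cm p) y₀ with hφ
  have hx : y₀ ∈ φ.source := mem_chart_source (Cm p) y₀
  have hs : ∀ y ∈ φ.source, Tendsto φ.symm (𝓝 (φ y)) (𝓝 y) := fun y hys => by
    have := (φ.continuousAt_symm (φ.map_source hys)).tendsto
    rwa [φ.left_inv hys] at this
  obtain ⟨r, hr, hball⟩ := Metric.mem_nhds_iff.1 (inter_mem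
    ((hs y₀ hx).eventually (hU.mem_nhds hy₀)) (φ.open_target.mem_nhds (φ.map_source hx)))
  refine ⟨φ.source ∩ φ ⁻¹' Metric.ball (φ y₀) r, ?_, ⟨hx, Metric.mem_ball_self hr⟩, ?_, ?_⟩
  · exact φ.continuousOn.isOpen_inter_preimage φ.open_source isOpen_ball
  · rintro y ⟨hys, hy⟩
    have := (hball hy).1
    have h2 : φ.symm (φ y) ∈ U := this
    rwa [φ.left_inv hys] at h2
  · rintro g hg ⟨y, ⟨hys, hy⟩, hy0⟩ z ⟨hzs, hz⟩
    have hana : AnalyticOnNhd ℂ (g ∘ φ.symm) (Metric.ball (φ y₀) r) := by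
      intro w hw
      obtain ⟨h1, h2⟩ := hball hw
      have h3 : HolAt (Cm p) g (φ.symm w) := hg _ h1
      have h4 : ContMDiffAt 𝓘(ℂ, Cm p) 𝓘(ℂ, Cm p) ω φ.symm w :=
        (contMDiffOn_chart_symm (x := y₀) w h2).contMDiffAt (φ.open_target.mem_nhds h2)
      have h5 : ContMDiffAt 𝓘(ℂ, Cm p) 𝓘(ℂ, ℂ) ω (g ∘ φ.symm) w := ContMDiffAt.comp w h3 h4
      exact h5.contDiffAt.analyticAt
    have hz0 : (g ∘ φ.symm) =ᶠ[𝓝 (φ y)] 0 := (hs y hys).eventually hy0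
    have hall := hana.eqOn_zero_of_preconnected_of_eventuallyEq_zero
      (convex_ball _ _).isPreconnected hy hz0
    have h1 : g (φ.symm (φ z)) = 0 := hall hz
    rwa [φ.left_inv hzs] at h1

/-- `D` is analytic at the points of `U`. -/
def LocAnalytic (D : Set Y) (y₀ : Y) : Prop :=
  ∃ (ι : Type) (U : Set Y) (P : ι → Y → ℂ), IsOpen U ∧ y₀ ∈ U ∧
    (∀ a, ∀ y ∈ U, HolAt (Cm p) (P a) y) ∧ ∀ y ∈ U, y ∈ D ↔ ∀ a, P a y = 0

theorem small_of_local [T2Space Y] [SecondCountableTopology Y] {S D : Set Y}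
    (hS : IsSmallSet (Cm p) S) (hpre : IsPreconnected Sᶜ)
    (hloc : ∀ y₀ ∉ S, LocAnalytic (p := p) D y₀) (hne : ∃ y, y ∉ S ∧ y ∉ D) :
    IsSmallSet (Cm p) (S ∪ D) := by
  obtain ⟨hSc, hSt⟩ := hS
  have hloc' : ∀ y₀ ∉ S, ∃ (ι : Type) (U U' : Set Y) (P : ι → Y → ℂ), IsOpen U' ∧ y₀ ∈ U' ∧
      U' ⊆ Sᶜ ∧ (∀ a, ∀ y ∈ U', HolAt (Cm p) (P a) y) ∧ (∀ y ∈ U', y ∈ D ↔ ∀ a, P a y = 0) ∧
      ∀ a, (∃ y ∈ U', ∀ᶠ z in 𝓝 y, P a z = 0) → ∀ z ∈ U', P a z = 0 := by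
    intro y₀ hy₀
    obtain ⟨ι, U, P, hU, hyU, hP, hD⟩ := hloc y₀ hy₀
    obtain ⟨U', h1, h2, h3, h4⟩ := exists_conn (p := p) (hU.inter hSc.isOpen_compl) ⟨hyU, hy₀⟩
    exact ⟨ι, U, U', P, h1, h2, fun y hy => (h3 hy).2, fun a y hy => hP a y (h3 hy).1,
      fun y hy => hD y (h3 hy).1, fun a => h4 (P a) fun y hy => hP a y hy.1⟩
  -- no point of `Sᶜ` is in the interior of `D`
  have hint : ∀ y₀ ∉ S, ¬ ∀ᶠ y in 𝓝 y₀, y ∈ D := by
    intro y₀ hy₀ hcon
    obtain ⟨y₁, hy₁, hy₁D⟩ := hne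
    set W : Set Y := {y | ∀ᶠ z in 𝓝 y, z ∈ D} with hW
    have hWo : IsOpen W := by
      rw [isOpen_iff_mem_nhds]
      exact fun y hy => eventually_eventually_nhds.2 hy
    have hWc : IsOpen (Sᶜ \ W) := by
      rw [isOpen_iff_mem_nhds]
      rintro y ⟨hyS, hyW⟩
      obtain ⟨ι, U, U', P, h1, h2, h3, h4, h5, h6⟩ := hloc' y hyS
      filter_upwards [h1.mem_nhds h2] with z hz
      refine ⟨h3 hz, fun hzW => hyW ?_⟩
      have h7 : ∀ z ∈ U', z ∈ D := fun z' hz' => (h5 z' hz').2 fun a => by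
        refine h6 a ⟨z, hz, ?_⟩ z' hz'
        filter_upwards [hzW, h1.mem_nhds hz] with v hv hvU using (h5 v hvU).1 hv a
      filter_upwards [h1.mem_nhds h2] with v hv using h7 v hv
    obtain ⟨z, hzS, hzW, hz⟩ := hpre W (Sᶜ \ W) hWo hWc (fun y hy => by
      by_cases h : y ∈ W
      · exact Or.inl h
      · exact Or.inr ⟨hy, h⟩) ⟨y₀, hy₀, hcon⟩ ⟨y₁, hy₁, hy₁, fun h => hy₁D (by
        exact (show ∀ᶠ z in 𝓝 y₁, z ∈ D from h).self_of_nhds)⟩
    exact hz.2 hzW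
  refine ⟨?_, ?_⟩
  · -- closed
    rw [← isOpen_compl_iff, isOpen_iff_mem_nhds]
    intro y hy
    rw [mem_compl_iff, mem_union, not_or] at hy
    obtain ⟨hyS, hyD⟩ := hy
    obtain ⟨ι, U, U', P, h1, h2, h3, h4, h5, h6⟩ := hloc' y hyS
    obtain ⟨a, ha⟩ := not_forall.1 (fun h => hyD ((h5 y h2).2 h))
    filter_upwards [h1.mem_nhds h2, (h4 a y h2).continuousAt.eventually_ne ha] with z hz hz'
    rintro (h | h)
    · exact h3 hz h
    · exact hz' ((h5 z hz).1 h a)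
  · have h0 : SThin (Cm p) (S ∪ (D ∩ Sᶜ)) := by
      refine SThin.union hSt ?_
      have himg : D ∩ Sᶜ = id '' (D ∩ Sᶜ) := by rw [image_id]
      rw [himg]
      refine SThin.image_of_local fun y hy => ?_
      obtain ⟨ι, U, U', P, h1, h2, h3, h4, h5, h6⟩ := hloc' y hy.2
      have hLC : LocallyCompactSpace Y := ChartedSpace.locallyCompactSpace (Cm p) Y
      obtain ⟨K, hK, hKU, hKc⟩ := local_compact_nhds (h1.mem_nhds h2)
      refine ⟨K, hK, ?_⟩
      rw [image_id]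
      obtain ⟨a, ha⟩ : ∃ a, ¬ ∀ z ∈ U', P a z = 0 := by
        by_contra hcon
        push Not at hcon
        refine hint y hy.2 ?_
        filter_upwards [h1.mem_nhds h2] with z hz using (h5 z hz).2 fun a => hcon a z hz
      have hcl : IsClosed (D ∩ Sᶜ ∩ K) := by
        have h7 : D ∩ Sᶜ ∩ K = K ∩ D := by
          ext z
          constructor
          · rintro ⟨⟨a, b⟩, c⟩
            exact ⟨c, a⟩
          · rintro ⟨a, b⟩
            exact ⟨⟨b, h3 (hKU a)⟩, a⟩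
        rw [h7, ← isOpen_compl_iff, isOpen_iff_mem_nhds]
        intro z hz
        by_cases hzK : z ∈ K
        · have hzD : z ∉ D := fun h => hz ⟨hzK, h⟩
          obtain ⟨b, hb⟩ := not_forall.1 (fun h => hzD ((h5 z (hKU hzK)).2 h))
          filter_upwards [h1.mem_nhds (hKU hzK),
            (h4 b z (hKU hzK)).continuousAt.eventually_ne hb] with v hv hv'
          rintro ⟨-, h⟩
          exact hv' ((h5 v hv).1 h b)
        · filter_upwards [hKc.isClosed.isOpen_compl.mem_nhds hzK] with v hv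
          rintro ⟨h, -⟩
          exact hv h
      refine SThin.of_thin (thin_of_isClosed hcl ?_) subset_rfl
      rintro z ⟨⟨hzD, hzS⟩, hzK⟩
      refine ⟨P a, h4 a z (hKU hzK), fun h => ha fun v hv => h6 a ⟨z, hKU hzK, h⟩ v hv, ?_⟩
      filter_upwards [h1.mem_nhds (hKU hzK)] with v hv hvD
      exact (h5 v hv).1 hvD.1.1 a
    refine SThin.mono h0 ?_
    rintro y (h | h)
    · exact Or.inl h
    · by_cases hy : y ∈ S
      · exact Or.inl hy
      · exact Or.inr ⟨h, hy⟩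

end Vale.Agent.P281.H969.K
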