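import Vale.Agent.P281.H969.K.Gauss
import Vale.Agent.P281.H969.K.Small

/-!
# P281, project T-K (helper969): block KDEG (DegStmt)
-/

open Set Filter Metric MeasureTheory Vale.Agent.P281 Vale.Agent.P281.H713
open Vale.Agent.P272.K (Chart At IsKahler)
open Vale.Agent.P281.H64.Thin (IsThinSet)
open Vale.Agent.P281.H64.Gen (IsSmallSet)
open scoped Topology ContDiff Manifold ComplexConjugate

noncomputable section

namespace Vale.Agent.P281.H969.K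

open Vale.Agent.P281.H64.TK
open Vale.Agent.P281.H64 (Cm Mark)

/-- `NDeg` may be checked in any model. -/
theorem nDeg_iff {n p d r : ℕ} {Z Y : Type} [TopologicalSpace Z] [ChartedSpace (Cm n) Z]
    [IsManifold 𝓘(ℂ, Cm n) ω Z] [TopologicalSpace Y] [ChartedSpace (Cm p) Y] {f : Z → Y}
    {E Γ : Type} [TopologicalSpace E] [T2Space E] [SimplyConnectedSpace E] [Group Γ]
    [MulAction Γ E] [ContinuousConstSMul Γ E] {𝓕 : Fam p d E Γ} {q : Cm p → E → Z}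
    {χ : OpenPartialHomeomorph Y (Cm p)} (M : Model (n := n) f 𝓕 χ q) {t : Cm p} (ht : t ∈ 𝓕.T) :
    NDeg n p d r f (χ.symm t) ↔ ∃ i, ∃ z ∈ ball (0 : Cm d) 3, (𝓕.at t ht).GaussAt r i z := by
  constructor
  · rintro ⟨E₂, Γ₂, _, _, _, _, _, _, 𝓕₂, q₂, χ₂, t₂, ht₂, M₂, hy, i, z, hz, h⟩
    obtain ⟨τ, ρ, h1, h2⟩ := exists_iso M₂ M ht₂ ht hy
    have h4 : ∀ e, q₂ t₂ (τ.symm e) = q t e := fun e => by rw [← h2, τ.apply_symm_apply]
    exact gaussAt_of_iso (S := 𝓕₂.at t₂ ht₂) (S' := 𝓕.at t ht) τ ρ h1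
      (fun i j z hz w hw γ he => K_aux M₂ M ht₂ ht hy τ.continuous h2 hz hw he)
      (fun j i w hw z hz γ he => K_aux M M₂ ht ht₂ hy.symm τ.symm.continuous h4 hw hz he) hz h
  · intro h
    exact ⟨E, Γ, _, inferInstance, inferInstance, _, _, inferInstance, 𝓕, q, χ, t, ht, M, rfl, h⟩

/-- **KDEG** -/
theorem deg (hD : DStmt) (hF1 : F1Stmt) (hab : ABStmt) (hW : WStmt) : DegStmt := by
  intro p d r Z Y _ _ _ _ _ _ _ _ _ f S w hd hf hsurj hPf hS hpre hw hne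
  have hYc : CompactSpace Y := by
    rw [← isCompact_univ_iff, ← hsurj.range_eq]
    exact isCompact_range hf.continuous
  have hYs : SecondCountableTopology Y := ChartedSpace.secondCountable_of_sigmaCompact (Cm p) Y
  refine ⟨S ∪ {y | ¬ NDeg (p + d) p d r f y}, subset_union_left,
    small_of_local hS hpre (fun y₀ hy₀ => ?_) ?_, ?_⟩
  · obtain ⟨E, Γ, _, _, _, _, _, _, 𝓕, q, M, hy₀T, hTS⟩ := hab p d Z Y f S hd hf hPf y₀ hy₀
    obtain ⟨W, hWp, hK⟩ := hW p d Z Y f w E Γ 𝓕 q (chartAt (Cm p) y₀) hf M hw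
    obtain ⟨n, ⟨Mk⟩⟩ := hF1 d E Γ (𝓕.at (chartAt (Cm p) y₀ y₀) hy₀T) hd
    obtain ⟨g, T', hT', F, c, hn, hTo, ht₀, hbas, hFa, hca⟩ :=
      hD p d E Γ 𝓕 W hd hK n Mk (chartAt (Cm p) y₀ y₀) hy₀T
    obtain ⟨ι, P, hP, hPD⟩ := gauss_analytic 𝓕 hT' hbas hFa r
    refine ⟨ι, (chartAt (Cm p) y₀).source ∩ chartAt (Cm p) y₀ ⁻¹' T',
      fun a y => P a (chartAt (Cm p) y₀ y),
      (chartAt (Cm p) y₀).continuousOn.isOpen_inter_preimage (chartAt (Cm p) y₀).open_source hTo,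
      ⟨mem_chart_source (Cm p) y₀, ht₀⟩, ?_, ?_⟩
    · rintro a y ⟨hys, hy⟩
      have h1 : ContMDiffAt 𝓘(ℂ, Cm p) 𝓘(ℂ, Cm p) ω (chartAt (Cm p) y₀) y :=
        contMDiffAt_of_mem_maximalAtlas (IsManifold.subset_maximalAtlas (chart_mem_atlas _ _)) hys
      have h2 : ContMDiffAt 𝓘(ℂ, Cm p) 𝓘(ℂ, ℂ) ω (P a) (chartAt (Cm p) y₀ y) :=
        ContDiffAt.contMDiffAt (hP a _ hy).contDiffAt
      exact ContMDiffAt.comp y h2 h1
    · rintro y ⟨hys, hy⟩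
      have h1 := nDeg_iff (r := r) M (hT' hy)
      rw [(chartAt (Cm p) y₀).left_inv hys] at h1
      rw [mem_ofPred_eq, h1]
      exact hPD _ hy
  · obtain ⟨y, hy, hn⟩ := hne
    exact ⟨y, hy, fun h => h hn⟩
  · intro y hy
    rw [mem_union, not_or] at hy
    exact not_not.1 hy.2

theorem deg_of_inputs (I : Inputs) : DegStmt := deg I.d I.f1 I.ab I.w

end Vale.Agent.P281.H969.K
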