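import Vale.Agent.P281.H125.Fib.Main

/-!
# P281, project T-KN, block KN1 (helper969): the map `E → F`, where `E` is the universal covering of
the fibre `f₁⁻¹(y₁)`
-/

open Set Filter Metric Vale.Agent.P281 Vale.Agent.P272.K
open scoped Topology ContDiff Manifold ComplexConjugate ComplexOrder

set_option linter.unusedSectionVars false

noncomputable section

namespace Vale.Agent.P281.H969.K.FibN

open Vale.Agent.P281.H64.TK Vale.Agent.P281.H125.KH.Sh Vale.Agent.P281.H125.Fib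

/-! ### Immersions -/

/-- a left inverse of an immersion, in a chart -/
theorem exists_left {n d : ℕ} {X F : Type} [TopologicalSpace X] [ChartedSpace (Cm n) X]
    [TopologicalSpace F] [ChartedSpace (Cm d) F] {i : F → X} {x₀ : F}
    (hi : ContMDiffAt 𝓘(ℂ, Cm d) 𝓘(ℂ, Cm n) ω i x₀)
    (himm : Function.Injective (mfderiv 𝓘(ℂ, Cm d) 𝓘(ℂ, Cm n) i x₀)) :
    ∃ B : Cm n →L[ℂ] Cm d, HasStrictFDerivAt
      (fun u => B (chartAt (Cm n) (i x₀) (i ((chartAt (Cm d) x₀).symm u))))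
      ((ContinuousLinearEquiv.refl ℂ (Cm d) : Cm d ≃L[ℂ] Cm d) : Cm d →L[ℂ] Cm d)
      (chartAt (Cm d) x₀ x₀) := by
  have h1 : mfderiv 𝓘(ℂ, Cm d) 𝓘(ℂ, Cm n) i x₀ = fderiv ℂ
      (fun u => chartAt (Cm n) (i x₀) (i ((chartAt (Cm d) x₀).symm u))) (chartAt (Cm d) x₀ x₀) := by
    rw [(hi.mdifferentiableAt (by simp)).mfderiv]
    simp only [writtenInExtChartAt, extChartAt, mfld_simps, fderivWithin_univ, Function.comp_def]
    rfl
  have h2 : ContDiffAt ℂ ω (fun u => chartAt (Cm n) (i x₀) (i ((chartAt (Cm d) x₀).symm u)))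
      (chartAt (Cm d) x₀ x₀) := by
    have h3 := (contMDiffAt_iff.1 hi).2
    simp only [extChartAt, mfld_simps, contDiffWithinAt_univ, Function.comp_def] at h3
    exact h3
  rw [h1] at himm
  set A := fderiv ℂ (fun u => chartAt (Cm n) (i x₀) (i ((chartAt (Cm d) x₀).symm u)))
    (chartAt (Cm d) x₀ x₀) with hA
  obtain ⟨B, hB⟩ := LinearMap.exists_leftInverse_of_injective (A : Cm d →ₗ[ℂ] Cm n)
    (LinearMap.ker_eq_bot.2 himm)
  refine ⟨LinearMap.toContinuousLinearMap B, ?_⟩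
  have h4 : HasStrictFDerivAt (fun u => chartAt (Cm n) (i x₀) (i ((chartAt (Cm d) x₀).symm u)))
      A (chartAt (Cm d) x₀ x₀) := h2.hasStrictFDerivAt (by simp)
  have h5 := (LinearMap.toContinuousLinearMap B).hasStrictFDerivAt.comp (chartAt (Cm d) x₀ x₀) h4
  have h6 : (LinearMap.toContinuousLinearMap B).comp A =
      ((ContinuousLinearEquiv.refl ℂ (Cm d) : Cm d ≃L[ℂ] Cm d) : Cm d →L[ℂ] Cm d) := by
    refine ContinuousLinearMap.ext fun ξ => ?_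
    exact congrArg (fun L : Cm d →ₗ[ℂ] Cm d => L ξ) hB
  rw [h6] at h5
  exact h5

/-- a continuous lift through an immersion is holomorphic -/
theorem mdiff_lift {n d : ℕ} {X F : Type} [TopologicalSpace X] [ChartedSpace (Cm n) X]
    [IsManifold 𝓘(ℂ, Cm n) ω X] [TopologicalSpace F] [ChartedSpace (Cm d) F] {i : F → X}
    {g : Cm d → F} {w : Cm d → X} {z : Cm d}
    (hi : ContMDiffAt 𝓘(ℂ, Cm d) 𝓘(ℂ, Cm n) ω i (g z))
    (himm : Function.Injective (mfderiv 𝓘(ℂ, Cm d) 𝓘(ℂ, Cm n) i (g z)))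
    (hg : ContinuousAt g z) (hw : MDifferentiableAt 𝓘(ℂ, Cm d) 𝓘(ℂ, Cm n) w z)
    (hgw : ∀ y, i (g y) = w y) : MDifferentiableAt 𝓘(ℂ, Cm d) 𝓘(ℂ, Cm d) g z := by
  have hM : IsManifold 𝓘(ℂ, Cm n) 1 X := IsManifold.of_le (n := ω) le_top
  obtain ⟨B, hB⟩ := exists_left hi himm
  set e := chartAt (Cm d) (g z) with he
  set c := chartAt (Cm n) (i (g z)) with hc
  have hx : w z ∈ c.source := by rw [← hgw]; exact mem_chart_source _ _
  have h1 : MDifferentiableAt 𝓘(ℂ, Cm n) 𝓘(ℂ, Cm n) c (w z) :=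
    mdifferentiableAt_atlas (chart_mem_atlas (Cm n) (i (g z))) hx
  have h2 : DifferentiableAt ℂ (fun y => c (w y)) z :=
    (HasMFDerivAt.comp z h1.hasMFDerivAt hw.hasMFDerivAt).hasFDerivAt.differentiableAt
  have h3 : DifferentiableAt ℂ (fun y => B (c (w y))) z := B.differentiableAt.comp z h2
  have h4 : B (c (w z)) = B (c (i (e.symm (e (g z))))) := by
    rw [e.left_inv (mem_chart_source _ _), hgw]
  have h5 := hB.to_localInverse
  have h5' : HasFDerivAt (hB.localInverse _ _ _)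
      ((ContinuousLinearEquiv.refl ℂ (Cm d)).symm : Cm d →L[ℂ] Cm d) (B (c (w z))) := by
    rw [h4]
    exact h5.hasFDerivAt
  have h6 := h5'.comp z h3.hasFDerivAt
  have hsrc : ∀ᶠ y in 𝓝 z, g y ∈ e.source :=
    hg.eventually (e.open_source.mem_nhds (mem_chart_source _ _))
  have hev : ContinuousAt (fun y => e (g y)) z :=
    ContinuousAt.comp (g := e) (f := g) (e.continuousAt (mem_chart_source _ _)) hg
  have h7 : (fun y => e (g y)) =ᶠ[𝓝 z] (hB.localInverse _ _ _) ∘ fun y => B (c (w y)) := by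
    filter_upwards [hsrc, hev.eventually hB.eventually_left_inverse] with y a1 a2
    have a3 : B (c (i (e.symm (e (g y))))) = B (c (w y)) := by rw [e.left_inv a1, hgw]
    show e (g y) = hB.localInverse _ _ _ (B (c (w y)))
    rw [← a3]
    exact a2.symm
  exact (hasMFDerivAt_of hg (h6.congr_of_eventuallyEq h7)).mdifferentiableAt

/-- the chain rule for the lift -/
theorem inj_lift {n m d : ℕ} {X X₁ F : Type} [TopologicalSpace X] [ChartedSpace (Cm n) X]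
    [TopologicalSpace X₁] [ChartedSpace (Cm m) X₁] [TopologicalSpace F] [ChartedSpace (Cm d) F]
    {i : F → X} {u : X₁ → X} {g : Cm d → F} {q : Cm d → X₁} {z : Cm d}
    (hi : MDifferentiableAt 𝓘(ℂ, Cm d) 𝓘(ℂ, Cm n) i (g z))
    (hu : MDifferentiableAt 𝓘(ℂ, Cm m) 𝓘(ℂ, Cm n) u (q z))
    (hg : MDifferentiableAt 𝓘(ℂ, Cm d) 𝓘(ℂ, Cm d) g z)
    (hq : MDifferentiableAt 𝓘(ℂ, Cm d) 𝓘(ℂ, Cm m) q z) (hgw : ∀ y, i (g y) = u (q y))
    (hu' : Function.Injective (mfderiv 𝓘(ℂ, Cm m) 𝓘(ℂ, Cm n) u (q z)))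
    (hq' : Function.Injective (mfderiv 𝓘(ℂ, Cm d) 𝓘(ℂ, Cm m) q z)) :
    Function.Injective (mfderiv 𝓘(ℂ, Cm d) 𝓘(ℂ, Cm d) g z) := by
  have h1 := (HasMFDerivAt.comp z hi.hasMFDerivAt hg.hasMFDerivAt).mfderiv
  have h2 := (HasMFDerivAt.comp z hu.hasMFDerivAt hq.hasMFDerivAt).mfderiv
  have h3 : i ∘ g = u ∘ q := funext hgw
  rw [h3] at h1
  have h4 := h1.symm.trans h2
  intro ξ ξ' hξ
  have a1 : ∀ ξ : Cm d, (mfderiv 𝓘(ℂ, Cm d) 𝓘(ℂ, Cm n) i (g z)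
      (mfderiv 𝓘(ℂ, Cm d) 𝓘(ℂ, Cm d) g z ξ) : Cm n) =
      (mfderiv 𝓘(ℂ, Cm m) 𝓘(ℂ, Cm n) u (q z) (mfderiv 𝓘(ℂ, Cm d) 𝓘(ℂ, Cm m) q z ξ) : Cm n) :=
    fun ξ => congrArg (fun L : Cm d →L[ℂ] Cm n => L ξ) h4
  have e1 := a1 ξ
  have e2 := a1 ξ'
  rw [hξ] at e1
  exact hq' (hu' (e1.symm.trans e2))

/-! ### The covering of the fibre -/

/-- `Q : E → Z` is the universal covering of a closed submanifold of `Z` -/
structure QD (n : ℕ) {d : ℕ} {Z : Type} [TopologicalSpace Z] [ChartedSpace (Cm n) Z]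
    {E Γ : Type} [TopologicalSpace E] [Group Γ] [MulAction Γ E] (S : Sheets d E Γ) (Q : E → Z) :
    Prop where
  Qcont : Continuous Q
  Qeq : ∀ e e', Q e = Q e' ↔ ∃ γ : Γ, γ • e = e'
  hol : ∀ j, ∀ z ∈ ball (0 : Cm d) 3,
    ContMDiffAt 𝓘(ℂ, Cm d) 𝓘(ℂ, Cm n) ω (fun y => Q (S.σ j y)) z
  coord : ∀ j, ∀ z ∈ ball (0 : Cm d) 3, ∃ ζ : Z → Cm d,
    ContMDiffAt 𝓘(ℂ, Cm n) 𝓘(ℂ, Cm d) ω ζ (Q (S.σ j z)) ∧ ζ (Q (S.σ j z)) = z ∧
    ∀ᶠ x in 𝓝 (Q (S.σ j z)), x ∈ range Q → Q (S.σ j (ζ x)) = x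

section model
variable {p d : ℕ} {Z Y : Type} [TopologicalSpace Z] [ChartedSpace (Cm (p + d)) Z]
  [TopologicalSpace Y] [ChartedSpace (Cm p) Y]
  {E Γ : Type} [TopologicalSpace E] [Group Γ] [MulAction Γ E]

theorem range_of_model {f : Z → Y} {𝓕 : Fam p d E Γ} {χ : OpenPartialHomeomorph Y (Cm p)}
    {q : Cm p → E → Z} (M : Model (n := p + d) f 𝓕 χ q) {t : Cm p} (ht : t ∈ 𝓕.T) :
    range (q t) = f ⁻¹' {χ.symm t} := by
  have htt : t ∈ χ.target := M.sub ht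
  have hsrc : χ.symm t ∈ χ.source := χ.map_target htt
  have hχ : χ (χ.symm t) = t := χ.right_inv htt
  ext x
  constructor
  · rintro ⟨e, rfl⟩
    exact M.fib t ht e
  · intro hx
    have hx' : f x = χ.symm t := hx
    obtain ⟨e, he⟩ := M.surj x (by rw [hx']; exact hsrc) (by rw [hx', hχ]; exact ht)
    rw [hx', hχ] at he
    exact ⟨e, he⟩

theorem qd_of_model {f : Z → Y} {𝓕 : Fam p d E Γ} {χ : OpenPartialHomeomorph Y (Cm p)}
    {q : Cm p → E → Z} (M : Model (n := p + d) f 𝓕 χ q) {t : Cm p} (ht : t ∈ 𝓕.T) :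
    QD (p + d) (𝓕.at t ht) (q t) := by
  have htt : t ∈ χ.target := M.sub ht
  have hχ : χ (χ.symm t) = t := χ.right_inv htt
  refine ⟨?_, M.eq t ht, ?_, ?_⟩
  · exact continuous_subtype_val.comp (M.cov t ht).continuous
  · intro j z hz
    have h1 := M.hol j t ht z hz
    have h2 : ContMDiffAt 𝓘(ℂ, Cm d) 𝓘(ℂ, Cm p × Cm d) ω (fun y : Cm d => (t, y)) z := by
      rw [contMDiffAt_iff_contDiffAt]
      fun_prop
    exact ContMDiffAt.comp (g := fun r : Cm p × Cm d => q r.1 (𝓕.σ j r.1 r.2)) z h1 h2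
  · intro j z hz
    obtain ⟨ζ, h1, h2, h3⟩ := M.coord j t ht z hz
    refine ⟨ζ, h1, h2, ?_⟩
    filter_upwards [h3] with x hx
    rintro ⟨e, rfl⟩
    have h4 : χ (f (q t e)) = t := by rw [M.fib t ht e, hχ]
    rw [h4] at hx
    exact hx

end model

section
variable {n d : ℕ} {Z : Type} [TopologicalSpace Z] [ChartedSpace (Cm n) Z]
  {E Γ : Type} [TopologicalSpace E] [Group Γ] [MulAction Γ E] {S : Sheets d E Γ} {Q : E → Z}

/-- `Q` is an immersion -/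
theorem QD.imm (h : QD n S Q) {j : Fin S.N} {z : Cm d} (hz : z ∈ ball (0 : Cm d) 3) :
    Function.Injective (mfderiv 𝓘(ℂ, Cm d) 𝓘(ℂ, Cm n) (fun y => Q (S.σ j y)) z) := by
  obtain ⟨ζ, h1, h2, h3⟩ := h.coord j z hz
  have hq := h.hol j z hz
  have hcont : ContinuousAt (fun y => Q (S.σ j y)) z := hq.continuousAt
  have hζc : ContinuousAt (fun y => ζ (Q (S.σ j y))) z :=
    ContinuousAt.comp (g := ζ) (f := fun y => Q (S.σ j y)) h1.continuousAt hcont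
  have hloc : (fun y : Cm d => y) =ᶠ[𝓝 z] ζ ∘ fun y => Q (S.σ j y) := by
    have e1 : ∀ᶠ y in 𝓝 z, ζ (Q (S.σ j y)) ∈ ball (0 : Cm d) 3 := by
      refine hζc.eventually (p := fun y => y ∈ ball (0 : Cm d) 3) ?_
      show ∀ᶠ y in 𝓝 (ζ (Q (S.σ j z))), y ∈ ball (0 : Cm d) 3
      rw [h2]
      exact isOpen_ball.mem_nhds hz
    filter_upwards [hcont.eventually h3, e1, isOpen_ball.mem_nhds hz] with y a1 a2 a3
    have a4 := a1 ⟨_, rfl⟩
    obtain ⟨γ, hγ⟩ := (h.Qeq _ _).1 a4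
    exact (S.inj j _ a2 y a3 γ hγ).2.symm
  have h5 := ((HasMFDerivAt.comp z (h1.mdifferentiableAt (by simp)).hasMFDerivAt
    (hq.mdifferentiableAt (by simp)).hasMFDerivAt).congr_of_eventuallyEq hloc).mfderiv
  have h6 := (hasMFDerivAt_id (I := 𝓘(ℂ, Cm d)) z).mfderiv
  have h7 := h6.symm.trans h5
  intro ξ ξ' hξ
  have a1 : ∀ ξ : Cm d, ξ = (mfderiv 𝓘(ℂ, Cm n) 𝓘(ℂ, Cm d) ζ (Q (S.σ j z))
      (mfderiv 𝓘(ℂ, Cm d) 𝓘(ℂ, Cm n) (fun y => Q (S.σ j y)) z ξ) : Cm d) :=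
    fun ξ => congrArg (fun L : Cm d →L[ℂ] Cm d => L ξ) h7
  have e1 := a1 ξ
  have e2 := a1 ξ'
  rw [hξ] at e1
  exact e1.trans e2.symm

theorem QD.exists_sheet (h : QD n S Q) {x : Z} (hx : x ∈ range Q) :
    ∃ (j : Fin S.N) (z : Cm d), ‖z‖ < 1 ∧ Q (S.σ j z) = x := by
  obtain ⟨e, rfl⟩ := hx
  obtain ⟨γ, j, z, hz, he⟩ := S.cover e
  exact ⟨j, z, hz, (h.Qeq _ _).2 ⟨γ, he⟩⟩

end

/-! ### The map to `F` -/

section lift
variable {d : ℕ} {F : Type} [TopologicalSpace F] [ChartedSpace (Cm d) F]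
  {E Γ : Type} [TopologicalSpace E] [Group Γ] [MulAction Γ E] {S : Sheets d E Γ}

/-- the properties of `π` (no immersion) -/
structure PiW (S : Sheets d E Γ) (π : E → F) : Prop where
  cont : Continuous π
  inv : ∀ (γ : Γ) e, π (γ • e) = π e
  der : ∀ j, ∀ z ∈ ball (0 : Cm d) 3,
    MDifferentiableAt 𝓘(ℂ, Cm d) 𝓘(ℂ, Cm d) (fun y => π (S.σ j y)) z

theorem PiW.hasMFDerivAt {π : E → F} (h : PiW S π) {j : Fin S.N} {z : Cm d}
    (hz : z ∈ ball (0 : Cm d) 3) :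
    HasMFDerivAt 𝓘(ℂ, Cm d) 𝓘(ℂ, Cm d) (fun y => π (S.σ j y)) z (D S π j z) :=
  (h.der j z hz).hasMFDerivAt

theorem PiW.continuousAt {π : E → F} (h : PiW S π) {j : Fin S.N} {z : Cm d}
    (hz : z ∈ ball (0 : Cm d) 3) : ContinuousAt (fun y => π (S.σ j y)) z :=
  h.cont.continuousAt.comp (S.map_nhds j z hz).le

variable [IsManifold 𝓘(ℂ, Cm d) ω F]

/-- the chain rule -/
theorem PiW.hasFDerivAt_comp {π : E → F} (h : PiW S π) {j : Fin S.N} {z : Cm d}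
    (hz : z ∈ ball (0 : Cm d) 3) {ψ : F → ℂ} (hψ : J.HolAt (Cm d) ψ (π (S.σ j z))) :
    HasFDerivAt (fun y => ψ (π (S.σ j y))) ((J.dif (Cm d) ψ (π (S.σ j z))).comp (D S π j z)) z := by
  have h1 : HasMFDerivAt 𝓘(ℂ, Cm d) 𝓘(ℂ, ℂ) ψ (π (S.σ j z)) (J.dif (Cm d) ψ (π (S.σ j z))) :=
    (hψ.mdifferentiableAt (by simp)).hasMFDerivAt
  exact (HasMFDerivAt.comp z h1 (h.hasMFDerivAt hz)).hasFDerivAt

theorem PiW.cl1 {π : E → F} (h : PiW S π) {η : F → (Cm d →L[ℂ] ℂ)} (hη : IsCl η) :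
    Cl1 S (lift S π η) where
  prim j z hz := by
    obtain ⟨ψ, h1, h2⟩ := hη (π (S.σ j z))
    refine ⟨fun y => ψ (π (S.σ j y)), ?_⟩
    filter_upwards [(h.continuousAt hz).eventually (holAt_eventually h1),
      (h.continuousAt hz).eventually h2, isOpen_ball.mem_nhds hz] with y h3 h4 h5
    have h6 := h.hasFDerivAt_comp h5 h3
    rw [← h4] at h6
    exact h6
  change i j z hz := by
    have hz3 : z ∈ ball (0 : Cm d) 3 := hz.1
    have hw3 : τ S i j z ∈ ball (0 : Cm d) 3 := tau_mem hz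
    have e0 : ∀ u ∈ U S i j, π (S.σ i u) = π (S.σ j (τ S i j u)) := by
      intro u hu
      rw [sigma_eq hu, h.inv]
    have e1 : (fun u => π (S.σ i u)) =ᶠ[𝓝 z] (fun y => π (S.σ j y)) ∘ τ S i j := by
      filter_upwards [isOpen_U.mem_nhds hz] with u hu using e0 u hu
    have e2 : HasMFDerivAt 𝓘(ℂ, Cm d) 𝓘(ℂ, Cm d) (τ S i j) z (fderiv ℂ (τ S i j) z) :=
      (analyticAt_tau hz).differentiableAt.hasFDerivAt.hasMFDerivAt
    have e3 := ((HasMFDerivAt.comp z (h.hasMFDerivAt hw3) e2).congr_of_eventuallyEq e1)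
    have e4 : D S π i z = (D S π j (τ S i j z)).comp (fderiv ℂ (τ S i j) z) := e3.mfderiv
    show (η (π (S.σ i z))).comp (D S π i z) =
      ((η (π (S.σ j (τ S i j z)))).comp (D S π j (τ S i j z))).comp (fderiv ℂ (τ S i j) z)
    rw [e4, e0 z hz, ContinuousLinearMap.comp_assoc]

/-- the additive functions given by closed forms -/
theorem PiW.exists_add [ContinuousConstSMul Γ E] [SimplyConnectedSpace E] {π : E → F}
    (h : PiW S π) {η : F → (Cm d →L[ℂ] ℂ)} (hη : IsCl η) :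
    ∃ (g : E → ℂ) (c : Γ → ℂ), Add S g c ∧ ∀ i, ∀ z ∈ ball (0 : Cm d) 3,
      HasFDerivAt (fun z => g (S.σ i z)) ((η (π (S.σ i z))).comp (D S π i z)) z :=
  exists_prim (h.cl1 hη)

end lift

end Vale.Agent.P281.H969.K.FibN
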