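import Vale.Agent.P281.H969.K.Jet
import Vale.Agent.P281.H603.K.Base

/-!
# P281, project T-K (helper969): block KDEG, local part

`Nd S F`: the `d`-fold products of the differentials of the components of `F : E → ℂ^g` generate the
1-jets of the canonical bundle at some point. In a family, the set of `t` such that this does not
hold, `F t` a basis of the additive functions, is analytic.
-/

open Set Filter Metric MeasureTheory
open scoped Topology ContDiff ComplexConjugate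

noncomputable section

namespace Vale.Agent.P281.H969.K

open Vale.Agent.P281.H64.TK
open Vale.Agent.P281.H64 (Cm Mark)

section
variable {d : ℕ} {E Γ : Type} [TopologicalSpace E] [Group Γ] [MulAction Γ E]

/-- The `d`-fold products of the `dF_j` generate the 1-jets of the canonical bundle, somewhere. -/
def Nd (S : Sheets d E Γ) {g : ℕ} (F : E → Fin g → ℂ) : Prop :=
  ∃ (i : Fin S.N) (z : Cm d), z ∈ ball (0 : Cm d) 3 ∧ JetInj (mnr fun z => F (S.σ i z)) z

theorem mnr_eq (S : Sheets d E Γ) {g : ℕ} (F : E → Fin g → ℂ) (i : Fin S.N) (I : Fin d → Fin g)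
    (z : Cm d) : S.minor (fun e a => F e (I a)) i z = mnr (fun z => F (S.σ i z)) I z := rfl

/-- `Nd` holds for `F'` on `S'` if it holds for `F = A F' + c` on the isomorphic manifold `S`. -/
theorem Nd.trans {E' Γ' : Type} [TopologicalSpace E'] [Group Γ'] [MulAction Γ' E'] {g g' : ℕ}
    {S : Sheets d E Γ} {S' : Sheets d E' Γ'} {F : E → Fin g → ℂ} {F' : E' → Fin g' → ℂ}
    {c' : Γ' → Fin g' → ℂ} (hF' : ∀ j, Add S' (fun e => F' e j) (fun γ => c' γ j)) (τ : E → E')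
    (hτ : ∀ i j, ∀ z ∈ ball (0 : Cm d) 3, ∀ w ∈ ball (0 : Cm d) 3, ∀ γ : Γ',
      τ (S.σ i z) = γ • S'.σ j w → ∃ θ : Cm d → Cm d, AnalyticAt ℂ θ z ∧ θ z = w ∧
        (jac θ z).det ≠ 0 ∧ ∀ᶠ u in 𝓝 z, τ (S.σ i u) = γ • S'.σ j (θ u))
    (A : Fin g → Fin g' → ℂ) (c : Fin g → ℂ) (hF : ∀ e j, F e j = (∑ l, A j l * F' (τ e) l) + c j)
    (h : Nd S F) : Nd S' F' := by
  obtain ⟨i, z, hz, h⟩ := h
  obtain ⟨γ, j, w, hw, he⟩ := S'.cover (τ (S.σ i z))
  have hw3 : w ∈ ball (0 : Cm d) 3 := H603.K.Sh.mem3 hw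
  obtain ⟨θ, h1, h2, h3, h4⟩ := hτ i j z hz w hw3 γ he.symm
  refine ⟨j, w, hw3, jetInj_trans h1 h2 h3 (fun l => H603.K.add_analyticAt (hF' l) j hw3) A
    (fun l => c l + ∑ m, A l m * c' γ m) ?_ h⟩
  filter_upwards [h4] with u hu l
  rw [hF, hu]
  have h5 : ∀ m, F' (γ • S'.σ j (θ u)) m = F' (S'.σ j (θ u)) m + c' γ m := fun m => (hF' m).add _ _
  simp only [h5, mul_add, Finset.sum_add_distrib]
  ring

end

section Joint
variable {p d : ℕ}

/-- The partial derivative `∂/∂z_k` of a function analytic in `(t, z)`. -/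
theorem analyticAt_dd₂ {G : Cm p × Cm d → ℂ} {q : Cm p × Cm d} (hG : AnalyticAt ℂ G q)
    (k : Fin d) : AnalyticAt ℂ (fun q : Cm p × Cm d => dd k (fun z => G (q.1, z)) q.2) q := by
  have h1 := ((ContinuousLinearMap.apply ℂ ℂ ((0, Pi.single k (1 : ℂ)) : Cm p × Cm d)).analyticAt
    _).comp hG.fderiv
  refine h1.congr ?_
  filter_upwards [hG.eventually_analyticAt] with r hr
  have h2 : HasFDerivAt (fun z : Cm d => (r.1, z)) (ContinuousLinearMap.inr ℂ (Cm p) (Cm d)) r.2 :=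
    hasFDerivAt_prodMk_right r.1 r.2
  have h3 : HasFDerivAt (fun z : Cm d => G (r.1, z))
      ((fderiv ℂ G r).comp (ContinuousLinearMap.inr ℂ (Cm p) (Cm d))) r.2 :=
    HasFDerivAt.comp r.2 (show HasFDerivAt G (fderiv ℂ G r) (r.1, r.2) from
      hr.differentiableAt.hasFDerivAt) h2
  show fderiv ℂ G r (0, Pi.single k 1) = dd k (fun z => G (r.1, z)) r.2
  rw [dd, h3.fderiv]
  rfl

variable {g : ℕ} {H : Cm p × Cm d → Fin g → ℂ} {q : Cm p × Cm d}

theorem analyticAt_mnr₂ (hH : ∀ j, AnalyticAt ℂ (fun q => H q j) q) (I : Fin d → Fin g) :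
    AnalyticAt ℂ (fun q : Cm p × Cm d => mnr (fun z => H (q.1, z)) I q.2) q :=
  analyticAt_det (M := fun q : Cm p × Cm d => Matrix.of fun j k =>
    dd k (fun z => H (q.1, z) (I j)) q.2) fun j k => analyticAt_dd₂ (hH (I j)) k

theorem analyticAt_jet₂ (hH : ∀ j, AnalyticAt ℂ (fun q => H q j) q)
    (s : Option (Fin d) → (Fin d → Fin g)) :
    AnalyticAt ℂ (fun q : Cm p × Cm d =>
      ((jet (mnr fun z => H (q.1, z)) q.2).submatrix s id).det) q := by
  refine analyticAt_det fun a b => ?_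
  cases b with
  | none => exact analyticAt_mnr₂ hH (s a)
  | some k => exact analyticAt_dd₂ (analyticAt_mnr₂ hH (s a)) k

end Joint

section Family
variable {p d : ℕ} {E Γ : Type} [TopologicalSpace E] [Group Γ] [MulAction Γ E]

/-- **KDEG**, local part: the set of degenerate parameters is analytic. -/
theorem deg_analytic (𝓕 : Fam p d E Γ) {g : ℕ} {T' : Set (Cm p)} (hT' : T' ⊆ 𝓕.T)
    {F : Cm p → E → Fin g → ℂ}
    (hF : ∀ i, ∀ t ∈ T', ∀ z ∈ ball (0 : Cm d) 3, ∀ j,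
      AnalyticAt ℂ (fun q : Cm p × Cm d => F q.1 (𝓕.σ i q.1 q.2) j) (t, z)) :
    ∃ (ι : Type) (P : ι → Cm p → ℂ), (∀ a, ∀ t ∈ T', AnalyticAt ℂ (P a) t) ∧
      ∀ (t : Cm p) (ht : t ∈ T'), ¬ Nd (𝓕.at t (hT' ht)) (F t) ↔ ∀ a, P a t = 0 := by
  refine ⟨Fin 𝓕.N × (ball (0 : Cm d) 3) × (Option (Fin d) → (Fin d → Fin g)), fun a t =>
    ((jet (mnr fun z => F t (𝓕.σ a.1 t z)) a.2.1.1).submatrix a.2.2 id).det, ?_, ?_⟩
  · rintro ⟨i, z, s⟩ t ht
    have h1 := analyticAt_jet₂ (H := fun q : Cm p × Cm d => F q.1 (𝓕.σ i q.1 q.2)) (q := (t, z.1))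
      (fun j => hF i t ht z.1 z.2 j) s
    have h2 : AnalyticAt ℂ (fun t : Cm p => (t, z.1)) t := by fun_prop
    exact AnalyticAt.comp' (f := fun t : Cm p => (t, z.1)) h1 h2
  · intro t ht
    rw [Nd]
    push Not
    constructor
    · rintro h ⟨i, z, s⟩
      have h1 := h i z.1 z.2
      rw [jetInj_iff] at h1
      push Not at h1
      exact h1 s
    · intro h i z hz h1
      obtain ⟨s, hs⟩ := jetInj_iff.1 h1
      exact hs (h ⟨i, ⟨z, hz⟩, s⟩)

end Family

end Vale.Agent.P281.H969.K
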