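import Vale.Agent.P281.H713.ZH
import Vale.Agent.P281.H713.GBound

/-!
# P281, project T-KN, block KN4 (helper969): fibres which are generically étale over tori of the same
dimension; the form of rank `0` is the Jacobian of the Albanese map
-/

open scoped Manifold ContDiff Topology ENNReal NNReal
open Set Filter Metric Module MeasureTheory

namespace Vale.Agent.P281.H969.K.Et

open Vale.Agent.P281 Vale.Agent.P281.MF Vale.Agent.P281.ISO Vale.Agent.P281.ELL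
open Vale.Agent.P281.H713

set_option linter.unusedSectionVars false

universe u

/-- the coordinates of `EuclideanSpace ℂ (Fin d)` -/
noncomputable def pr {d : ℕ} (j : Fin d) : EuclideanSpace ℂ (Fin d) →L[ℂ] ℂ :=
  EuclideanSpace.proj j

theorem norm_pr {d : ℕ} (j : Fin d) : ‖(pr j : EuclideanSpace ℂ (Fin d) →L[ℂ] ℂ)‖ ≤ 1 := by
  refine ContinuousLinearMap.opNorm_le_bound _ zero_le_one fun v => ?_
  rw [one_mul]
  exact PiLp.norm_apply_le v j

/-- `det (L (ξ l)) j` -/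
noncomputable def dt {W : Type} [NormedAddCommGroup W] [NormedSpace ℂ W] {d : ℕ}
    (L : W →L[ℂ] EuclideanSpace ℂ (Fin d)) (ξ : Fin d → W) : ℂ :=
  (Matrix.of fun j l => pr j (L (ξ l))).det

theorem minor_eq_dt {d : ℕ} (h : (Fin d → ℂ) → EuclideanSpace ℂ (Fin d)) (v : Fin d → ℂ) :
    minor pr h v = dt (fderiv ℂ h v) fun l => Pi.single l 1 := rfl

theorem dt_comp {W W' : Type} [NormedAddCommGroup W] [NormedSpace ℂ W] [NormedAddCommGroup W']
    [NormedSpace ℂ W'] {d : ℕ} (L : W →L[ℂ] EuclideanSpace ℂ (Fin d)) (T : W' →L[ℂ] W)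
    (ξ : Fin d → W') : dt (L.comp T) ξ = dt L fun l => T (ξ l) := rfl

/-- change of the vectors -/
theorem dt_vec {d : ℕ} (L : (Fin d → ℂ) →L[ℂ] EuclideanSpace ℂ (Fin d))
    (ξ : Fin d → (Fin d → ℂ)) : dt L ξ =
      dt L (fun l => Pi.single l 1) * (Matrix.of fun k l => ξ l k).det := by
  unfold dt
  rw [← Matrix.det_mul]
  congr 1
  ext j l
  rw [Matrix.mul_apply]
  simp only [Matrix.of_apply]
  have h1 : ξ l = ∑ k, ξ l k • (Pi.single k (1 : ℂ) : Fin d → ℂ) := by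
    funext i
    simp [Finset.sum_apply, Pi.single_apply]
  conv_lhs => rw [h1]
  rw [map_sum, map_sum]
  refine Finset.sum_congr rfl fun k _ => ?_
  rw [map_smul, map_smul, smul_eq_mul, mul_comm]

/-- change of the basis -/
theorem dt_map {W : Type} [NormedAddCommGroup W] [NormedSpace ℂ W] {d : ℕ}
    (G : EuclideanSpace ℂ (Fin d) →L[ℂ] EuclideanSpace ℂ (Fin d))
    (L : W →L[ℂ] EuclideanSpace ℂ (Fin d)) (ξ : Fin d → W) :
    dt (G.comp L) ξ = G.det * dt L ξ := by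
  set b := (EuclideanSpace.basisFun (Fin d) ℂ).toBasis with hb
  have h1 : G.det = (LinearMap.toMatrix b b (G : EuclideanSpace ℂ (Fin d) →ₗ[ℂ] _)).det :=
    (LinearMap.det_toMatrix b _).symm
  rw [h1]
  unfold dt
  rw [← Matrix.det_mul]
  congr 1
  ext j l
  rw [Matrix.mul_apply]
  have h2 : ∀ k, LinearMap.toMatrix b b (G : EuclideanSpace ℂ (Fin d) →ₗ[ℂ] _) j k =
      pr j (G (b k)) := by
    intro k
    rw [LinearMap.toMatrix_apply]
    simp [hb, pr]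
  simp only [Matrix.of_apply, h2]
  have h3 : L (ξ l) = ∑ k, pr k (L (ξ l)) • b k := by
    have h4 := b.sum_repr (L (ξ l))
    conv_lhs => rw [← h4]
    refine Finset.sum_congr rfl fun k _ => ?_
    congr 1
  show pr j (G (L (ξ l))) = _
  conv_lhs => rw [h3]
  rw [map_sum, map_sum]
  refine Finset.sum_congr rfl fun k _ => ?_
  rw [map_smul, map_smul, smul_eq_mul, mul_comm]

section Fam

variable (E E' : Type) [NormedAddCommGroup E] [NormedSpace ℂ E]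
  [NormedAddCommGroup E'] [NormedSpace ℂ E']
variable {X Y : Type u} [TopologicalSpace X] [ChartedSpace E X]
  [TopologicalSpace Y] [ChartedSpace E' Y]

/-- A family of manifolds of dimension `d` with maps to polarized complex tori of dimension `d`, which
are local isomorphisms at some point of each fibre. -/
structure IsEtFamily {n : ℕ} (d : ℕ) (f : X → Y) (S : Set Y)
    (Q : (Fin n → ℝ) → (Fin n → ℝ) → ℝ) {ι : Type u} (U : ι → Set Y)
    (π : ι → Y → ((Fin n → ℝ) ≃L[ℝ] EuclideanSpace ℂ (Fin d)))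
    (α : ι → X → EuclideanSpace ℂ (Fin d)) : Prop
    extends IsPeriodFamily E' S Q U π where
  coord : ∀ x, f x ∉ S → ∃ ζ : X → (Fin d → ℂ), IsFibreCoord E E' f ζ x
  lift : ∀ a x, f x ∈ U a → ∃ β : X → EuclideanSpace ℂ (Fin d),
    ContMDiffAt 𝓘(ℂ, E) 𝓘(ℂ, EuclideanSpace ℂ (Fin d)) ω β x ∧
    ∀ᶠ z in 𝓝 x, IsCongr (π a (f z)) (α a z) (β z)
  gen : ∀ a, ∀ y ∈ U a, ∃ (q : (Fin d → ℂ) → X) (v₀ : Fin d → ℂ),
    ContMDiffAt 𝓘(ℂ, Fin d → ℂ) 𝓘(ℂ, E) ω q v₀ ∧ (∀ᶠ v in 𝓝 v₀, f (q v) = y) ∧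
    ∀ h : (Fin d → ℂ) → EuclideanSpace ℂ (Fin d), ContDiffAt ℂ ω h v₀ →
    (∀ᶠ v in 𝓝 v₀, IsCongr (π a y) (α a (q v)) (h v)) → minor pr h v₀ ≠ 0
  volume : ∃ A : ℝ≥0, ∀ (a : ι) (q : (Fin d → ℂ) → X) (v₀ : Fin d → ℂ) (r : ℝ),
    IsPolydisc E f q v₀ r → f (q v₀) ∈ U a → ∀ h : (Fin d → ℂ) → EuclideanSpace ℂ (Fin d),
    DifferentiableOn ℂ h (ball v₀ r) →
    (∀ v ∈ ball v₀ r, IsCongr (π a (f (q v₀))) (α a (q v)) (h v)) →
    ∀ G : EuclideanSpace ℂ (Fin d) ≃L[ℂ] EuclideanSpace ℂ (Fin d),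
    (∀ x x', (inner ℂ (G (π a (f (q v₀)) x)) (G (π a (f (q v₀)) x'))).im = Q x x') →
    ∀ m : Fin d → (EuclideanSpace ℂ (Fin d) →L[ℂ] ℂ), (∀ i, ‖m i‖ ≤ 1) →
      ∫⁻ v in ball v₀ r, ‖minor m (fun u => G (h u)) v‖ₑ ^ 2 ≤ A
  change : ∀ a b, ∀ y ∈ U a ∩ U b, ∃ (G : EuclideanSpace ℂ (Fin d) ≃L[ℂ] EuclideanSpace ℂ (Fin d))
    (c : EuclideanSpace ℂ (Fin d)), IsPeriodChange Q (π a y) (π b y) G ∧ ∀ z, f z = y →
      IsCongr (π b y) (G (α a z) + c) (α b z)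

end Fam

section Forms

variable {E E' : Type} [NormedAddCommGroup E] [NormedSpace ℂ E] [FiniteDimensional ℂ E]
  [NormedAddCommGroup E'] [NormedSpace ℂ E'] [FiniteDimensional ℂ E']
variable {X Y : Type u} [TopologicalSpace X] [ChartedSpace E X] [IsManifold 𝓘(ℂ, E) ω X]
  [TopologicalSpace Y] [ChartedSpace E' Y] [IsManifold 𝓘(ℂ, E') ω Y]
variable {n d : ℕ} {Q : (Fin n → ℝ) → (Fin n → ℝ) → ℝ}
variable {f : X → Y} {S : Set Y} {ι : Type u} {U : ι → Set Y}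
  {π : ι → Y → ((Fin n → ℝ) ≃L[ℝ] EuclideanSpace ℂ (Fin d))}
  {α : ι → X → EuclideanSpace ℂ (Fin d)}

/-- vertical vectors come from slices -/
theorem vert (hf : ∀ x, HolM E E' f x) {x : X} {ζ : X → (Fin d → ℂ)} (hζ : HolV E ζ x)
    (hinj : ∀ ξ, dM E E' f x ξ = 0 → dV E ζ x ξ = 0 → ξ = 0) {q : (Fin d → ℂ) → X}
    {v : Fin d → ℂ} {P : E →L[ℂ] (Fin d → ℂ)} (hq : SlG E f q v x P) (hP : P = dV E ζ x) {ξ : E}
    (hξ : dM E E' f x ξ = 0) :
    (mfderiv 𝓘(ℂ, Fin d → ℂ) 𝓘(ℂ, E) q v : (Fin d → ℂ) →L[ℂ] E) (dV E ζ x ξ) = ξ := by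
  obtain ⟨hq0, hq1, hq2, hq3⟩ := hq
  subst hq0
  set T : (Fin d → ℂ) →L[ℂ] E := mfderiv 𝓘(ℂ, Fin d → ℂ) 𝓘(ℂ, E) q v with hT
  have h1 : dM E E' f (q v) (T (dV E ζ (q v) ξ)) = 0 := slice_ker hf hq1 hq2 _
  have h4 : dV E ζ (q v) (T (dV E ζ (q v) ξ)) = dV E ζ (q v) ξ := by
    have := congrArg (fun L : (Fin d → ℂ) →L[ℂ] (Fin d → ℂ) => L (dV E ζ (q v) ξ)) hq3
    rw [hP] at this
    exact this
  have h5 := hinj (T (dV E ζ (q v) ξ) - ξ)
    (by rw [map_sub, h1, hξ, sub_zero]) (by rw [map_sub, h4, sub_self])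
  exact sub_eq_zero.1 h5

/-- the derivative along a slice -/
theorem vert_dV (hf : ∀ x, HolM E E' f x) {x : X} {ζ : X → (Fin d → ℂ)} (hζ : HolV E ζ x)
    (hinj : ∀ ξ, dM E E' f x ξ = 0 → dV E ζ x ξ = 0 → ξ = 0) {q : (Fin d → ℂ) → X}
    {v : Fin d → ℂ} {P : E →L[ℂ] (Fin d → ℂ)} (hq : SlG E f q v x P) (hP : P = dV E ζ x)
    {W : Type} [NormedAddCommGroup W] [NormedSpace ℂ W] {β : X → W} (hβ : HolV E β x) {ξ : E}
    (hξ : dM E E' f x ξ = 0) :
    dV E β x ξ = fderiv ℂ (fun t => β (q t)) v (dV E ζ x ξ) := by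
  have h1 := vert hf hζ hinj hq hP hξ
  obtain ⟨hq0, hq1, hq2, hq3⟩ := hq
  subst hq0
  rw [(slice_fderiv hq1 hβ).2]
  show _ = dV E β (q v) ((mfderiv 𝓘(ℂ, Fin d → ℂ) 𝓘(ℂ, E) q v : (Fin d → ℂ) →L[ℂ] E)
    (dV E ζ (q v) ξ))
  rw [h1]

/-- two functions which differ by an affine map on the fibre -/
theorem vert_affine (hf : ∀ x, HolM E E' f x) (e₀ : E ≃L[ℂ] (E' × (Fin d → ℂ))) {x : X}
    {ζ : X → (Fin d → ℂ)} (hζ : HolV E ζ x)
    (hinj : ∀ ξ, dM E E' f x ξ = 0 → dV E ζ x ξ = 0 → ξ = 0)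
    {β β' : X → EuclideanSpace ℂ (Fin d)} (hβ : HolV E β x) (hβ' : HolV E β' x)
    {G : EuclideanSpace ℂ (Fin d) →L[ℂ] EuclideanSpace ℂ (Fin d)} {c : EuclideanSpace ℂ (Fin d)}
    (h : ∀ᶠ z in 𝓝 x, f z = f x → β' z = G (β z) + c) {ξ : E} (hξ : dM E E' f x ξ = 0) :
    dV E β' x ξ = G (dV E β x ξ) := by
  obtain ⟨R, hR1, hR2, hR3⟩ := exists_slices hf e₀ hζ hinj
  have hs := (slg_near hf hζ hR1 hR2 hR3).self_of_nhds
  rw [vert_dV hf hζ hinj hs rfl hβ' hξ, vert_dV hf hζ hinj hs rfl hβ hξ]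
  obtain ⟨hq0, hq1, hq2, hq3⟩ := hs
  set q : (Fin d → ℂ) → X := fun t => R (chartAt E' (f x) (f x), t) with hq
  have hqt : Tendsto q (𝓝 (ζ x)) (𝓝 x) := by
    have := hq1.continuousAt.tendsto
    rwa [hq0] at this
  have h1 : (fun t => β' (q t)) =ᶠ[𝓝 (ζ x)] fun t => G (β (q t)) + c := by
    filter_upwards [hqt.eventually h, hq2] with t h2 h3
    exact h2 h3
  have hβq : HolV E β (q (ζ x)) := by rw [hq0]; exact hβ
  have h2 : DifferentiableAt ℂ (fun t => β (q t)) (ζ x) :=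
    (slice_fderiv hq1 hβq).1.differentiableAt (by simp)
  rw [h1.fderiv_eq, fderiv_add_const]
  have h3 : HasFDerivAt (fun t => G (β (q t))) (G.comp (fderiv ℂ (fun t => β (q t)) (ζ x)))
      (ζ x) := G.hasFDerivAt.comp (ζ x) h2.hasFDerivAt
  rw [h3.fderiv]
  rfl

/-- two lifts of the same map differ by a constant on the fibre -/
theorem lift_same {a : ι} {x : X} {β β' : X → EuclideanSpace ℂ (Fin d)}
    (hβ : Lft E f π α a x β) (hβ' : Lft E f π α a x β') :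
    ∃ c : EuclideanSpace ℂ (Fin d), ∀ᶠ z in 𝓝 x, f z = f x →
      β' z = (ContinuousLinearMap.id ℂ (EuclideanSpace ℂ (Fin d))) (β z) + c := by
  obtain ⟨ε, hε, hdis⟩ := lam_discrete (π a (f x))
  have hlat : ∀ᶠ z in 𝓝 x, f z = f x → β' z - β z ∈ Lam (π a (f x)) := by
    filter_upwards [hβ.2, hβ'.2] with z h1 h2 hz
    rw [hz] at h1 h2
    obtain ⟨m₁, hm₁⟩ := h1
    obtain ⟨m₂, hm₂⟩ := h2
    have h3 : β' z - β z = (π a (f x) fun i => (m₂ i : ℝ)) - π a (f x) fun i => (m₁ i : ℝ) := by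
      rw [hm₂, hm₁]
      abel
    rw [h3]
    exact lam_sub (mem_lam _) (mem_lam _)
  have hx0 := hlat.self_of_nhds rfl
  have hcont : ContinuousAt (fun z => β' z - β z - (β' x - β x)) x :=
    (hβ'.1.continuousAt.sub hβ.1.continuousAt).sub continuousAt_const
  have hsm := hcont.norm.eventually_lt_const (u := ε) (by
    show ‖β' x - β x - (β' x - β x)‖ < ε
    rw [sub_self, norm_zero]
    exact hε)
  refine ⟨β' x - β x, ?_⟩
  filter_upwards [hlat, hsm] with z hz hz' hfz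
  have h5 := hdis _ (hz hfz) _ hx0 hz'
  rw [← h5, ContinuousLinearMap.id_apply]
  abel

/-- change of maps, along the fibre -/
theorem lift_changeE (hC : IsEtFamily E E' d f S Q U π α) {a b : ι} {y : Y} (ha : y ∈ U a)
    (hb : y ∈ U b) :
    ∃ (G : EuclideanSpace ℂ (Fin d) ≃L[ℂ] EuclideanSpace ℂ (Fin d)),
      IsPeriodChange Q (π a y) (π b y) G ∧ ∀ {x' : X}, f x' = y →
      ∀ {β β' : X → EuclideanSpace ℂ (Fin d)}, Lft E f π α a x' β → Lft E f π α b x' β' →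
      ∃ c : EuclideanSpace ℂ (Fin d), ∀ᶠ z in 𝓝 x', f z = f x' →
        β' z = (G : EuclideanSpace ℂ (Fin d) →L[ℂ] EuclideanSpace ℂ (Fin d)) (β z) + c := by
  obtain ⟨G, c, hG, hGc⟩ := hC.change a b y ⟨ha, hb⟩
  refine ⟨G, hG, fun {x'} hx' {β β'} hβ hβ' => ?_⟩
  obtain ⟨ε, hε, hdis⟩ := lam_discrete (π b y)
  have hlat : ∀ᶠ z in 𝓝 x', f z = f x' → β' z - (G (β z) + c) ∈ Lam (π b y) := by
    filter_upwards [hβ.2, hβ'.2] with z h1 h2 hz
    rw [hz, hx'] at h1 h2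
    obtain ⟨m₁, hm₁⟩ := h1
    obtain ⟨m₂, hm₂⟩ := h2
    obtain ⟨m₃, hm₃⟩ := hGc z (by rw [hz, hx'])
    obtain ⟨m₄, hm₄⟩ := hG.1 m₁
    have h3 : β' z - (G (β z) + c) = (π b y fun i => (m₃ i : ℝ)) +
        (π b y fun i => (m₂ i : ℝ)) - π b y fun i => (m₄ i : ℝ) := by
      rw [hm₂, hm₃, hm₁, map_add, hm₄]
      abel
    rw [h3]
    exact lam_sub (lam_add (mem_lam _) (mem_lam _)) (mem_lam _)
  have hx0 := hlat.self_of_nhds rfl
  have hcont : ContinuousAt (fun z => β' z - (G (β z) + c) - (β' x' - (G (β x') + c))) x' :=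
    (hβ'.1.continuousAt.sub
      ((G.continuous.continuousAt.comp hβ.1.continuousAt).add continuousAt_const)).sub
      continuousAt_const
  have hsm := hcont.norm.eventually_lt_const (u := ε) (by
    show ‖β' x' - (G (β x') + c) - (β' x' - (G (β x') + c))‖ < ε
    rw [sub_self, norm_zero]
    exact hε)
  refine ⟨c + (β' x' - (G (β x') + c)), ?_⟩
  filter_upwards [hlat, hsm] with z hz hz' hfz
  have h5 := hdis _ (hz hfz) _ hx0 hz'
  rw [← h5]
  show β' z = G (β z) + _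
  abel

/-- the forms -/
theorem exists_eta (hC : IsEtFamily E E' d f S Q U π α) (hf : ∀ x, HolM E E' f x)
    (e₀ : E ≃L[ℂ] (E' × (Fin d → ℂ))) :
    ∃ η : ι → X → (Fin d → E) → ℂ, ∀ a x, f x ∈ U a → ∀ β, Lft E f π α a x β →
      ∀ ξ : Fin d → E, (∀ l, dM E E' f x (ξ l) = 0) → η a x ξ = dt (dV E β x) ξ := by
  classical
  have hex : ∀ a x, ∃ h : (Fin d → E) → ℂ, f x ∈ U a → ∀ β, Lft E f π α a x β →
      ∀ ξ : Fin d → E, (∀ l, dM E E' f x (ξ l) = 0) → h ξ = dt (dV E β x) ξ := by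
    intro a x
    by_cases hx : f x ∈ U a
    · obtain ⟨β₀, hβ₀⟩ := hC.lift a x hx
      have hβ₀ : Lft E f π α a x β₀ := hβ₀
      obtain ⟨ζ, hζ, hinj⟩ := hC.coord x ((hC.cover _).2 ⟨a, hx⟩)
      refine ⟨fun ξ => dt (dV E β₀ x) ξ, fun _ β hβ ξ hξ => ?_⟩
      obtain ⟨c, hc⟩ := lift_same hβ₀ hβ
      show dt (dV E β₀ x) ξ = dt (dV E β x) ξ
      unfold dt
      congr 1
      ext j l
      simp only [Matrix.of_apply]
      rw [vert_affine hf e₀ hζ hinj hβ₀.1 hβ.1 hc (hξ l)]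
      rfl
    · exact ⟨fun _ => 0, fun h => absurd h hx⟩
  choose η hη using hex
  exact ⟨η, fun a x hx β hβ ξ hξ => hη a x hx β hβ ξ hξ⟩

/-- the lift of the map to the torus along a polydisc -/
theorem poly_liftE (hC : IsEtFamily E E' d f S Q U π α) {q : (Fin d → ℂ) → X}
    {v₀ : Fin d → ℂ} {r : ℝ} (hq : IsPolydisc E f q v₀ r) {a : ι} (ha : f (q v₀) ∈ U a) :
    ∃ h : (Fin d → ℂ) → EuclideanSpace ℂ (Fin d), DifferentiableOn ℂ h (ball v₀ r) ∧
      (∀ v ∈ ball v₀ r, IsCongr (π a (f (q v₀))) (α a (q v)) (h v)) := by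
  obtain ⟨hq1, hq2, hq3⟩ := hq
  set y' := f (q v₀) with hy'
  obtain ⟨ε, hε, hdis⟩ := lam_discrete (π a y')
  obtain ⟨H, hH1, hH2, -⟩ := H713.exists_lift (E := Fin d → ℂ) (p := cls (π a y'))
    (Λ := Lam (π a y')) hε hdis
    (fun w w' => cls_eq) (B := ball v₀ r) isOpen_ball (convex_ball v₀ r)
    (Q := fun v => cls (π a y') (α a (q v)))
    (fun v hv => by
      have hv' : f (q v) ∈ U a := by rw [hq3 v hv]; exact ha
      obtain ⟨β, h4, h5⟩ := hC.lift a (q v) hv'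
      have h6 := hq1 v hv
      refine ⟨fun z => β (q z), (slice_fderiv h6 h4).1, ?_⟩
      filter_upwards [h6.continuousAt.eventually h5, isOpen_ball.mem_nhds hv] with z h7 h8
      rw [hq3 z h8] at h7
      exact (congr_iff_cls.1 h7).symm)
  exact ⟨H, hH1, fun v hv => congr_iff_cls.2 (hH2 v hv).symm⟩

theorem minor_map_eq (G : EuclideanSpace ℂ (Fin d) →L[ℂ] EuclideanSpace ℂ (Fin d))
    {h : (Fin d → ℂ) → EuclideanSpace ℂ (Fin d)} {v : Fin d → ℂ} (hh : DifferentiableAt ℂ h v) :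
    minor pr (fun u => G (h u)) v = G.det * minor pr h v := by
  rw [minor_eq_dt, minor_eq_dt]
  have h3 : HasFDerivAt (fun t => G (h t)) (G.comp (fderiv ℂ h v)) v :=
    G.hasFDerivAt.comp v hh.hasFDerivAt
  rw [h3.fderiv, dt_map]

theorem vol_map (G : EuclideanSpace ℂ (Fin d) →L[ℂ] EuclideanSpace ℂ (Fin d))
    {h : (Fin d → ℂ) → EuclideanSpace ℂ (Fin d)} {v₀ : Fin d → ℂ} {r : ℝ}
    (hh : DifferentiableOn ℂ h (ball v₀ r)) {P : (Fin d → ℂ) → ℂ}
    (hP : ∀ v ∈ ball v₀ r, P v = minor pr h v) :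
    (∫⁻ v in ball v₀ r, ‖P v‖ₑ ^ (2 / ((1 : ℕ) : ℝ))) * ‖G.det‖ₑ ^ 2 =
      ∫⁻ v in ball v₀ r, ‖minor pr (fun u => G (h u)) v‖ₑ ^ 2 := by
  rw [mul_comm, ← lintegral_const_mul' _ _ (by simp)]
  refine setLIntegral_congr_fun measurableSet_ball fun v hv => ?_
  have h9 : minor pr (fun u => G (h u)) v = G.det * minor pr h v :=
    minor_map_eq G (hh.differentiableAt (isOpen_ball.mem_nhds hv))
  have h10 : ‖P v‖ₑ ^ (2 / ((1 : ℕ) : ℝ)) = ‖minor pr h v‖ₑ ^ 2 := by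
    rw [hP v hv]
    norm_num
  show ‖G.det‖ₑ ^ 2 * ‖P v‖ₑ ^ (2 / ((1 : ℕ) : ℝ)) = ‖minor pr (fun u => G (h u)) v‖ₑ ^ 2
  rw [h9, h10, enorm_mul, mul_pow]

/-- the family of forms -/
theorem isPeriodForms (hC : IsEtFamily E E' d f S Q U π α) (hf : ∀ x, HolM E E' f x)
    (e₀ : E ≃L[ℂ] (E' × (Fin d → ℂ))) :
    ∃ η : ι → Fin 1 → X → (Fin d → E) → ℂ,
      IsPeriodForms E E' f S 0 1 (fun _ => 0) Q 1 (fun i : Fin 0 => (i.elim0 : Matrix (Fin 0) (Fin 0) ℝ))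
        (fun i : Fin 0 => (i.elim0 : Fin 0 → ℝ)) (fun i : Fin 0 => (i.elim0 : ℕ)) U π
        (fun _ _ i => (i.elim0 : Fin 0 → ℂ)) η := by
  classical
  obtain ⟨η, hη⟩ := exists_eta hC hf e₀
  have hUS : ∀ a, ∀ y ∈ U a, y ∉ S := fun a y hy => (hC.cover y).2 ⟨a, hy⟩
  refine ⟨fun a _ => η a, ?_⟩
  constructor
  · exact hC.toIsPeriodFamily
  · intro a y hy j
    exact j.elim0
  · intro x hx
    obtain ⟨ζ, hζ, hinj⟩ := hC.coord x hx
    have hζ : HolV E ζ x := hζ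
    have hζl : ∀ l, HolV E (fun z => ζ z l) x := fun l => HolV.eval hζ l
    refine ⟨fun l z => ζ z l, hζl, fun ξ h1 h2 => hinj ξ h1 ?_⟩
    have h3 : ∀ l, dV E ζ x ξ l = 0 := fun l => by
      have h4 := dV_vec hζl ξ l
      rw [show dif E (fun z => ζ z l) x ξ = 0 from h2 l] at h4
      exact h4
    exact funext h3
  · intro a x hx T e hT he
    obtain ⟨ζ, hζ, hinj⟩ := hC.coord x (hUS a _ hx)
    have hζ : HolV E ζ x := hζ
    have hinj : ∀ ξ, dM E E' f x ξ = 0 → dV E ζ x ξ = 0 → ξ = 0 := hinj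
    have hζl : ∀ l, HolV E (fun z => ζ z l) x := fun l => HolV.eval hζ l
    obtain ⟨β, hβ⟩ := hC.lift a x hx
    have hβ : Lft E f π α a x β := hβ
    obtain ⟨R, hR1, hR2, hR3⟩ := exists_slices hf e₀ hζ hinj
    set ψ := chartAt E' (f x) with hψ
    have hys : f x ∈ ψ.source := mem_chart_source E' (f x)
    have hR0 : R (ψ (f x), ζ x) = x := hR2.self_of_nhds
    have hpair : HolV E (fun z => (ψ (f z), ζ z)) x :=
      (HolV.comp (h := (ψ : Y → E')) (HolV.chart hys) (hf x)).prodMk hζ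
    have hB : ContDiffAt ℂ ω (fun p => β (R p)) (ψ (f x), ζ x) := by
      have h1 : HolV E β (R (ψ (f x), ζ x)) := by rw [hR0]; exact hβ.1
      exact (slice_fderiv hR1 h1).1
    have hjoint := minor_joint (μ := fun _ : E' => (pr : Fin d → (EuclideanSpace ℂ (Fin d) →L[ℂ] ℂ)))
      (B := fun p => β (R p)) (x₀ := (ψ (f x), ζ x)) contDiffAt_const hB
    refine ⟨fun l z => ζ z l, fun _ z => minor pr (fun t => β (R (ψ (f z), t))) (ζ z),
      ⟨hζl, fun ξ h1 h2 => hinj ξ h1 ?_⟩, fun _ => ?_, ?_⟩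
    · have h3 : ∀ l, dV E ζ x ξ l = 0 := fun l => by
        have h4 := dV_vec hζl ξ l
        rw [show dif E (fun z => ζ z l) x ξ = 0 from h2 l] at h4
        exact h4
      exact funext h3
    · exact HolV.comp_contDiff (v := fun z => (ψ (f z), ζ z)) hjoint hpair
    · filter_upwards [slg_near hf hζ hR1 hR2 hR3, HolV.eventually hβ.1,
        eventually_eventually_nhds.2 hβ.2, ker_eventually hf e₀ hζ hinj, HolV.eventually hζ,
        (hf x).continuousAt.eventually ((hC.isOpen a).mem_nhds hx)] with z h1 h2 h3 h4 h5 h6 h7 i ξ hξ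
      have h8 := hη a z h6 β ⟨h2, h3⟩ ξ hξ
      have hζz : ∀ l, HolV E (fun z => ζ z l) z := fun l => HolV.eval h5 l
      rw [show (∏ D ∈ T, e D z ^ (fun _ : Set X => (0 : ℕ)) D) = 1 from by simp, mul_one, pow_one]
      show η a z ξ = _
      rw [h8]
      have h9 : dt (dV E β z) ξ = dt (fderiv ℂ (fun t => β (R (ψ (f z), t))) (ζ z))
          (fun l => dV E ζ z (ξ l)) := by
        unfold dt
        congr 1
        ext j l
        simp only [Matrix.of_apply]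
        rw [vert_dV hf h5 h4 h1 rfl h2 (hξ l)]
      rw [h9, dt_vec, minor_eq_dt]
      congr 1
      congr 1
      ext k l
      simp only [Matrix.of_apply]
      exact dV_vec hζz (ξ l) k
  · intro a y hy
    obtain ⟨q, v₀, hq, hfq, hq0⟩ := hC.gen a y hy
    have hx : f (q v₀) = y := hfq.self_of_nhds
    have hxa : f (q v₀) ∈ U a := by rw [hx]; exact hy
    obtain ⟨β, hβ⟩ := hC.lift a (q v₀) hxa
    have hβ : Lft E f π α a (q v₀) β := hβ
    have h1 := slice_fderiv hq hβ.1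
    have h2 : ∀ᶠ v in 𝓝 v₀, IsCongr (π a y) (α a (q v)) (β (q v)) := by
      filter_upwards [hq.continuousAt.eventually hβ.2, hfq] with v h3 h4
      rw [h4] at h3
      exact h3
    have h3 := hq0 _ h1.1 h2
    have hfq' : ∀ᶠ v in 𝓝 v₀, f (q v) = f (q v₀) := by
      filter_upwards [hfq] with v hv
      rw [hv, hx]
    set Tq : (Fin d → ℂ) →L[ℂ] E := mfderiv 𝓘(ℂ, Fin d → ℂ) 𝓘(ℂ, E) q v₀ with hTq
    have hver : ∀ w, dM E E' f (q v₀) (Tq w) = 0 := fun w => slice_ker hf hq hfq' w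
    refine ⟨q v₀, hx, fun D hD => absurd rfl hD, 0, fun s => s.elim0, fun s => s.elim0,
      ⟨fun l => Tq (Pi.single l 1), fun l => hver _, ?_⟩, fun s => s.elim0, ?_, fun c _ => ?_⟩
    · show η a (q v₀) _ ≠ 0
      rw [hη a _ hxa β hβ _ fun l => hver _]
      rw [minor_eq_dt, h1.2] at h3
      exact h3
    · exact Filter.Eventually.of_forall fun z s => s.elim0
    · exact Subsingleton.elim _ _
  · intro a b y hy
    obtain ⟨G, hG, hG2⟩ := lift_changeE hC hy.1 hy.2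
    refine ⟨G, 1, fun j => j.elim0, 1, hG, fun j => j.elim0, fun x hx _ i ξ hξ => ?_⟩
    have hxa : f x ∈ U a := by rw [hx]; exact hy.1
    have hxb : f x ∈ U b := by rw [hx]; exact hy.2
    obtain ⟨β, hβ⟩ := hC.lift a x hxa
    obtain ⟨β', hβ'⟩ := hC.lift b x hxb
    have hβ : Lft E f π α a x β := hβ
    have hβ' : Lft E f π α b x β' := hβ'
    obtain ⟨c, hc⟩ := hG2 hx hβ hβ'
    obtain ⟨ζ, hζ, hinj⟩ := hC.coord x (hUS a _ hxa)
    show η b x ξ = _ * η a x ξ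
    rw [hη a x hxa β hβ ξ hξ, hη b x hxb β' hβ' ξ hξ]
    have h1 : dt (dV E β' x) ξ = dt ((G : EuclideanSpace ℂ (Fin d) →L[ℂ] _).comp (dV E β x)) ξ := by
      unfold dt
      congr 1
      ext j l
      simp only [Matrix.of_apply]
      rw [vert_affine hf e₀ hζ hinj hβ.1 hβ'.1 hc (hξ l)]
      rfl
    rw [h1, dt_map]
    simp
  · obtain ⟨A, hA⟩ := hC.volume
    refine ⟨A, fun a i q v₀ r hq ha _ G hG => ?_⟩
    rcases le_or_gt r 0 with hr | hr
    · rw [ball_eq_empty.2 hr]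
      simp
    obtain ⟨h, hh1, hh2⟩ := poly_liftE hC hq ha
    have hvol := hA a q v₀ r hq ha h hh1 hh2 G hG pr fun i => norm_pr i
    obtain ⟨hq1, hq2, hq3⟩ := hq
    have hpt : ∀ v ∈ ball v₀ r, pull E (η a) q v = minor pr h v := by
      intro v hv
      have hva : f (q v) ∈ U a := by rw [hq3 v hv]; exact ha
      obtain ⟨β, hβ⟩ := hC.lift a (q v) hva
      have hβ : Lft E f π α a (q v) β := hβ
      have hfq' : ∀ᶠ u in 𝓝 v, f (q u) = f (q v) := by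
        filter_upwards [isOpen_ball.mem_nhds hv] with u hu
        rw [hq3 u hu, hq3 v hv]
      have h1 := slice_fderiv (hq1 v hv) hβ.1
      unfold pull
      rw [hη a _ hva β hβ _ fun l => slice_ker hf (hq1 v hv) hfq' _]
      have h6 : (fun t => β (q t)) =ᶠ[𝓝 v] fun z => h z + (β (q v) - h v) := by
        refine lift_constG (P := π a (f (q v₀))) (w := fun z => α a (q z))
          (hh1.continuousOn.continuousAt (isOpen_ball.mem_nhds hv)) h1.1.continuousAt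
          (eventually_of_mem (isOpen_ball.mem_nhds hv) hh2) ?_
        filter_upwards [(hq1 v hv).continuousAt.eventually hβ.2, isOpen_ball.mem_nhds hv]
          with z h7 h8
        rw [hq3 z h8] at h7
        exact h7
      have h7 : fderiv ℂ (fun t => β (q t)) v = fderiv ℂ h v := by
        rw [h6.fderiv_eq, fderiv_add_const]
      rw [minor_eq_dt, ← h7, h1.2]
      rfl
    have h8 : periodNorm (fun i : Fin 0 => (i.elim0 : Matrix (Fin 0) (Fin 0) ℝ))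
        (fun i : Fin 0 => (i.elim0 : ℕ)) (fun i : Fin 0 => (i.elim0 : Fin 0 → ℂ)) = 1 := by
      simp [periodNorm]
    show (∫⁻ v in ball v₀ r, ‖pull E (η a) q v‖ₑ ^ (2 / ((1 : ℕ) : ℝ))) ^ 1 *
      ‖(G : EuclideanSpace ℂ (Fin d) →L[ℂ] EuclideanSpace ℂ (Fin d)).det‖ₑ ^ (2 * 1) ≤
      ENNReal.ofReal ((A : ℝ) * periodNorm (fun i : Fin 0 => (i.elim0 : Matrix (Fin 0) (Fin 0) ℝ))
        (fun i : Fin 0 => (i.elim0 : ℕ)) (fun i : Fin 0 => (i.elim0 : Fin 0 → ℂ)))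
    rw [h8, mul_one, pow_one, mul_one, ENNReal.ofReal_coe_nnreal]
    refine le_trans (le_of_eq ?_) hvol
    exact vol_map (G : EuclideanSpace ℂ (Fin d) →L[ℂ] EuclideanSpace ℂ (Fin d)) hh1 hpt

/-- **the forms of rank 0** -/
theorem hasForms (hC : IsEtFamily E E' d f S Q U π α) (hf : ∀ x, HolM E E' f x)
    (e₀ : E ≃L[ℂ] (E' × (Fin d → ℂ))) {Δ : Set X → ℝ} (hΔ : ∀ D, 0 ≤ Δ D) {y : Y} (hy : y ∉ S) :
    HasForms f S e₀ Δ 0 y := by
  obtain ⟨η, hη⟩ := isPeriodForms hC hf e₀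
  refine hasForms_periods hη hf e₀ one_pos (by simp) (fun D hD => absurd rfl hD) (fun D => ?_) hy
  have := hΔ D
  simpa using this

end Forms

end Vale.Agent.P281.H969.K.Et
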