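import Vale.Agent.P281.H969.K.Deg
import Vale.Agent.P281.H969.K.K
import Vale.Agent.P281.H64.TK.SpecG

/-!
# P281, project T-K (helper969): block KDEG, the rank of the Gauss map

`GaussAt r` in terms of a basis: some determinant of order `r + 1` with columns `u`, `∂u/∂z_c` of the
1-jets of the `d`-fold minors of the basis is not `0`.
-/

open Set Filter Metric MeasureTheory
open scoped Topology ContDiff ComplexConjugate

noncomputable section

namespace Vale.Agent.P281.H969.K

open Vale.Agent.P281.H64.TK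
open Vale.Agent.P281.H64 (Cm Mark)

section Wr
variable {d r : ℕ}

/-- The row `(u, ∂u/∂z_{c 0}, …)`. -/
def wrow (c : Fin r → Fin d) (u : Cm d → ℂ) (z : Cm d) : Fin (r + 1) → ℂ :=
  Fin.cons (u z) fun l => dd (c l) u z

/-- The determinant of `r + 1` such rows. -/
def Wr (u : Fin (r + 1) → Cm d → ℂ) (c : Fin r → Fin d) (z : Cm d) : ℂ :=
  (Matrix.of fun k => wrow c (u k) z).det

theorem dd_div {u v : Cm d → ℂ} {z : Cm d} (hu : DifferentiableAt ℂ u z)
    (hv : DifferentiableAt ℂ v z) (h0 : v z ≠ 0) (l : Fin d) :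
    dd l (fun w => u w / v w) z * v z = dd l u z - dd l v z / v z * u z := by
  have h1 : DifferentiableAt ℂ (fun w => u w / v w) z := by
    simp only [div_eq_mul_inv]
    exact hu.mul (hv.inv h0)
  have h2 : HasFDerivAt (fun w => u w / v w * v w) ((u z / v z) • fderiv ℂ v z +
      v z • fderiv ℂ (fun w => u w / v w) z) z := h1.hasFDerivAt.mul hv.hasFDerivAt
  have h3 : (fun w => u w / v w * v w) =ᶠ[𝓝 z] u := by
    filter_upwards [hv.continuousAt.eventually_ne h0] with w hw using div_mul_cancel₀ _ hw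
  have h4 := congrArg (fun L : Cm d →L[ℂ] ℂ => L (Pi.single l 1))
    ((h2.congr_of_eventuallyEq h3.symm).fderiv)
  simp only [add_apply, smul_apply, smul_eq_mul] at h4
  simp only [dd]
  rw [h4]
  field_simp
  ring

theorem wr_eq {u : Fin (r + 1) → Cm d → ℂ} {c : Fin r → Fin d} {z : Cm d}
    (hu : ∀ k, DifferentiableAt ℂ (u k) z) (h0 : u 0 z ≠ 0) :
    Wr u c z = u 0 z * (u 0 z ^ r *
      (Matrix.of fun k l : Fin r => dd (c l) (fun w => u k.succ w / u 0 w) z).det) := by
  have h1 : (Matrix.of fun l k : Fin (r + 1) =>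
      (Fin.cons (u k z) (fun l => dd (c l) (u k) z - dd (c l) (u 0) z / u 0 z * u k z) :
        Fin (r + 1) → ℂ) l).det = (Matrix.of fun k => wrow c (u k) z).transpose.det := by
    refine Matrix.det_eq_of_forall_row_eq_smul_add_const
      (Fin.cons 0 fun l => -(dd (c l) (u 0) z / u 0 z)) 0 rfl fun i j => ?_
    refine Fin.cases ?_ (fun i => ?_) i
    · simp [wrow]
    · simp only [Matrix.of_apply, Fin.cons_succ, Matrix.transpose_apply, wrow, Fin.cons_zero]
      ring
  rw [Wr, ← Matrix.det_transpose, ← h1, Matrix.det_succ_column_zero, Fin.sum_univ_succ]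
  have h2 : ∀ i : Fin r, (Matrix.of fun l k : Fin (r + 1) =>
      (Fin.cons (u k z) (fun l => dd (c l) (u k) z - dd (c l) (u 0) z / u 0 z * u k z) :
        Fin (r + 1) → ℂ) l) i.succ 0 = 0 := by
    intro i
    simp only [Matrix.of_apply, Fin.cons_succ]
    rw [div_mul_cancel₀ _ h0, sub_self]
  have h3 : ((Matrix.of fun l k : Fin (r + 1) =>
      (Fin.cons (u k z) (fun l => dd (c l) (u k) z - dd (c l) (u 0) z / u 0 z * u k z) :
        Fin (r + 1) → ℂ) l).submatrix (Fin.succAbove 0) Fin.succ) =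
      u 0 z • (Matrix.of fun k l : Fin r =>
        dd (c l) (fun w => u k.succ w / u 0 w) z).transpose := by
    ext l k
    simp only [Matrix.submatrix_apply, Matrix.of_apply, Fin.zero_succAbove, Fin.cons_succ,
      Matrix.smul_apply, Matrix.transpose_apply, smul_eq_mul]
    rw [mul_comm (u 0 z), dd_div (hu _) (hu 0) h0]
  simp only [h2, mul_zero, zero_mul, Finset.sum_const_zero, add_zero]
  rw [h3, Matrix.det_smul, Matrix.det_transpose, Fintype.card_fin]
  simp

theorem surj_iff {V : Cm d → Fin r → ℂ} {N : Matrix (Fin r) (Fin d) ℂ}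
    (h : ∀ ξ, V ξ = N.mulVec ξ) : Function.Surjective V ↔
      ∃ c : Fin r → Fin d, (N.submatrix id c).det ≠ 0 := by
  constructor
  · intro hs
    have h1 : ∀ x : Fin r → ℂ, N.transpose.mulVec x = 0 → x = 0 := by
      intro x hx
      funext k
      obtain ⟨ξ, hξ⟩ := hs (Pi.single k 1)
      rw [h] at hξ
      have h2 : N.mulVec ξ ⬝ᵥ x = 0 := by
        rw [dotProduct_comm, Matrix.dotProduct_mulVec, ← Matrix.mulVec_transpose, hx,
          zero_dotProduct]
      rw [hξ, single_dotProduct, one_mul] at h2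
      exact h2
    obtain ⟨c, hc⟩ := exists_minor N.transpose h1
    refine ⟨c, ?_⟩
    rw [← Matrix.det_transpose]
    exact hc
  · rintro ⟨c, hc⟩ y
    refine ⟨fun m => ∑ l, if c l = m then ((N.submatrix id c)⁻¹.mulVec y) l else 0, ?_⟩
    rw [h]
    have h1 : N.mulVec (fun m => ∑ l, if c l = m then ((N.submatrix id c)⁻¹.mulVec y) l else 0) =
        (N.submatrix id c).mulVec ((N.submatrix id c)⁻¹.mulVec y) := by
      funext k
      simp only [Matrix.mulVec, dotProduct, Matrix.submatrix_apply, id]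
      simp_rw [Finset.mul_sum]
      rw [Finset.sum_comm]
      refine Finset.sum_congr rfl fun l _ => ?_
      simp [Finset.mul_sum]
    rw [h1, Matrix.mulVec_mulVec, Matrix.mul_nonsing_inv _ (isUnit_iff_ne_zero.2 hc),
      Matrix.one_mulVec]

/-- The map given by quotients is submersive if and only if some determinant is not `0`. -/
theorem surj_quot_iff {u : Fin (r + 1) → Cm d → ℂ} {z : Cm d}
    (hu : ∀ k, DifferentiableAt ℂ (u k) z) (h0 : u 0 z ≠ 0) :
    (Function.Surjective fun (ξ : Cm d) (k : Fin r) => fderiv ℂ (fun w => u k.succ w / u 0 w) z ξ) ↔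
      ∃ c : Fin r → Fin d, Wr u c z ≠ 0 := by
  rw [surj_iff (N := Matrix.of fun (k : Fin r) (l : Fin d) =>
    dd l (fun w => u k.succ w / u 0 w) z)]
  · refine exists_congr fun c => ?_
    rw [wr_eq hu h0]
    constructor
    · intro h
      exact mul_ne_zero h0 (mul_ne_zero (pow_ne_zero _ h0) h)
    · intro h h1
      refine h ?_
      have h2 : (Matrix.of fun k l : Fin r => dd (c l) (fun w => u k.succ w / u 0 w) z).det = 0 :=
        h1
      rw [h2, mul_zero, mul_zero]
  · intro ξ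
    funext k
    have h1 : ξ = ∑ m : Fin d, ξ m • (Pi.single m (1 : ℂ) : Cm d) := by
      funext l
      simp [Finset.sum_apply, Pi.single_apply]
    conv_lhs => rw [h1, map_sum]
    simp only [Matrix.mulVec, dotProduct, Matrix.of_apply, dd]
    refine Finset.sum_congr rfl fun m _ => ?_
    rw [map_smul, smul_eq_mul, mul_comm]

/-- Expansion of the determinant of linear combinations. -/
theorem wr_lin {ι : Type} [Fintype ι] {u : Fin (r + 1) → Cm d → ℂ} {v : ι → Cm d → ℂ}
    {c : Fin r → Fin d} {z : Cm d} (a : Fin (r + 1) → ι → ℂ)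
    (hv : ∀ I, DifferentiableAt ℂ (v I) z)
    (h : ∀ k, u k =ᶠ[𝓝 z] fun w => ∑ I, a k I * v I w) :
    Wr u c z = ∑ s : Fin (r + 1) → ι, (∏ k, a k (s k)) * Wr (fun k => v (s k)) c z := by
  classical
  have h1 : (Matrix.of fun k => wrow c (u k) z) = fun k => ∑ I, a k I • wrow c (v I) z := by
    funext k
    have h2 : HasFDerivAt (fun w => ∑ I, a k I * v I w) (∑ I, a k I • fderiv ℂ (v I) z) z :=
      HasFDerivAt.fun_sum fun I _ => (hv I).hasFDerivAt.const_mul (a k I)
    funext l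
    rw [Matrix.of_apply, Finset.sum_apply]
    refine Fin.cases ?_ (fun l => ?_) l
    · simp only [wrow, Fin.cons_zero, Pi.smul_apply, smul_eq_mul]
      exact (h k).self_of_nhds
    · simp only [wrow, Fin.cons_succ, Pi.smul_apply, smul_eq_mul, dd]
      rw [(h k).fderiv_eq, h2.fderiv, sum_apply]
      rfl
  have h2 := (Matrix.detRowAlternating (R := ℂ) (n := Fin (r + 1))).toMultilinearMap.map_sum
    (g := fun (k : Fin (r + 1)) (I : ι) => a k I • wrow c (v I) z)
  have h3 : Wr u c z = (Matrix.detRowAlternating (R := ℂ) (n := Fin (r + 1))).toMultilinearMap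
      (fun k => ∑ I, a k I • wrow c (v I) z) := by
    rw [← h1]
    rfl
  rw [h3, h2]
  refine Finset.sum_congr rfl fun s _ => ?_
  rw [MultilinearMap.map_smul_univ, smul_eq_mul]
  rfl

theorem wr_perm {u : Fin (r + 1) → Cm d → ℂ} {c : Fin r → Fin d} {z : Cm d}
    (σ : Equiv.Perm (Fin (r + 1))) (h : Wr u c z ≠ 0) : Wr (fun k => u (σ k)) c z ≠ 0 := by
  have h1 : Wr (fun k => u (σ k)) c z =
      ((Matrix.of fun k => wrow c (u k) z).submatrix σ id).det := rfl
  rw [h1, Matrix.det_permute]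
  refine mul_ne_zero ?_ h
  rcases Int.units_eq_one_or (Equiv.Perm.sign σ) with h2 | h2 <;> rw [h2] <;> simp

theorem exists_ne_of_wr {u : Fin (r + 1) → Cm d → ℂ} {c : Fin r → Fin d} {z : Cm d}
    (h : Wr u c z ≠ 0) : ∃ k, u k z ≠ 0 := by
  by_contra hcon
  push Not at hcon
  refine h ?_
  refine Matrix.det_eq_zero_of_column_eq_zero 0 fun k => ?_
  rw [Matrix.of_apply, wrow, Fin.cons_zero]
  exact hcon k

end Wr

section Basis
variable {d : ℕ} {E Γ : Type} [TopologicalSpace E] [Group Γ] [MulAction Γ E]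

theorem minor_eq' (S : Sheets d E Γ) (h : E → Cm d) (i : Fin S.N) (z : Cm d) :
    S.minor h i z = mnr (g := d) (fun z => h (S.σ i z)) id z := rfl

theorem analyticAt_minor {S : Sheets d E Γ} {h : E → Cm d} (hh : ∀ a, ∃ b, Add S (fun e => h e a) b)
    (i : Fin S.N) {z : Cm d} (hz : z ∈ ball (0 : Cm d) 3) : AnalyticAt ℂ (S.minor h i) z :=
  analyticAt_mnr (h := fun z => h (S.σ i z)) (fun a => by
    obtain ⟨b, hb⟩ := hh a
    exact H603.K.add_analyticAt hb i hz) id

/-- The rank of the Gauss map in terms of a basis. -/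
theorem gaussAt_iff [SimplyConnectedSpace E] [ContinuousConstSMul Γ E] {S : Sheets d E Γ} {g : ℕ}
    {F : E → Fin g → ℂ} {c : Γ → Fin g → ℂ} (hb : IsBas S F c) {r : ℕ} {i : Fin S.N} {z : Cm d}
    (hz : z ∈ ball (0 : Cm d) 3) : S.GaussAt r i z ↔ ∃ (s : Fin (r + 1) → (Fin d → Fin g))
      (m : Fin r → Fin d), Wr (fun k => mnr (fun z => F (S.σ i z)) (s k)) m z ≠ 0 := by
  have hF : ∀ j, ∀ w ∈ ball (0 : Cm d) 3, AnalyticAt ℂ (fun z => F (S.σ i z) j) w := fun j w hw =>
    H603.K.add_analyticAt (hb.add j) i hw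
  constructor
  · rintro ⟨h, hh, h0, hs⟩
    obtain ⟨m, hm⟩ := (surj_quot_iff (u := fun k => S.minor (h k) i)
      (fun k => (analyticAt_minor (hh k) i hz).differentiableAt) h0).1 hs
    -- coordinates of `h`
    have hco : ∀ k a, ∃ (A : Fin g → ℂ) (b : ℂ), ∀ e, h k e a = (∑ j, A j * F e j) + b := by
      intro k a
      obtain ⟨b, hb'⟩ := hh k a
      obtain ⟨A, hA⟩ := hb.span _ _ hb'
      have h1 : Add S (fun e => h k e a - ∑ j, A j * F e j) (fun γ => b γ - ∑ j, A j * c γ j) := by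
        refine ⟨fun i => ?_, fun γ e => ?_⟩
        · exact (hb'.hol i).fun_sub (DifferentiableOn.fun_sum fun j _ =>
            ((hb.add j).hol i).const_mul _)
        · have h2 := hb'.add γ e
          have h3 : ∀ j, F (γ • e) j = F e j + c γ j := fun j => (hb.add j).add γ e
          simp only [h2, h3, mul_add, Finset.sum_add_distrib]
          ring
      obtain ⟨e₀⟩ : Nonempty E := inferInstance
      refine ⟨A, h k e₀ a - ∑ j, A j * F e₀ j, fun e => ?_⟩
      have h2 := H603.K.unique_of_re S h1 (fun γ => by rw [hA, sub_self, Complex.zero_re]) e e₀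
      rw [← h2]
      ring
    choose A b hA using hco
    rw [wr_lin (v := fun K : Fin d → Fin g => mnr (fun z => F (S.σ i z)) K)
      (fun k K => ∏ a, A k a (K a)) (fun K => (analyticAt_mnr (fun j => hF j z hz) K).differentiableAt)
      (fun k => ?_)] at hm
    · obtain ⟨s, -, hs⟩ := Finset.exists_ne_zero_of_sum_ne_zero hm
      exact ⟨s, m, right_ne_zero_of_mul hs⟩
    · filter_upwards [isOpen_ball.mem_nhds hz] with w hw
      have h1 : (fun z => h k (S.σ i z)) = fun w a => (∑ l, A k a l * F (S.σ i w) l) + b k a := by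
        funext w a
        exact hA k a _
      rw [minor_eq', h1]
      exact mnr_lin (h := fun w => F (S.σ i w)) (fun j => (hF j w hw).differentiableAt) id
  · rintro ⟨s, m, hs⟩
    obtain ⟨k₀, hk₀⟩ := exists_ne_of_wr hs
    have h1 := wr_perm (Equiv.swap 0 k₀) hs
    have hh : ∀ k a, ∃ b, Add S (fun e => F e (s (Equiv.swap 0 k₀ k) a)) b := fun k a =>
      ⟨_, hb.add _⟩
    have h0 : S.minor (fun e a => F e (s (Equiv.swap 0 k₀ 0) a)) i z ≠ 0 := by
      rw [Equiv.swap_apply_left]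
      exact hk₀
    exact ⟨fun k e a => F e (s (Equiv.swap 0 k₀ k) a), hh, h0,
      (surj_quot_iff (u := fun k => S.minor (fun e a => F e (s (Equiv.swap 0 k₀ k) a)) i)
        (fun k => (analyticAt_minor (hh k) i hz).differentiableAt) h0).2 ⟨m, h1⟩⟩

/-- The rank of the Gauss map does not depend on the sheets. -/
theorem gaussAt_of_iso {E' Γ' : Type} [TopologicalSpace E'] [Group Γ'] [MulAction Γ' E']
    {S : Sheets d E Γ} {S' : Sheets d E' Γ'} (τ : E ≃ₜ E') (ρ : Γ ≃* Γ')
    (hρ : ∀ γ e, τ (γ • e) = ρ γ • τ e)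
    (h1 : ∀ i j, ∀ z ∈ ball (0 : Cm d) 3, ∀ w ∈ ball (0 : Cm d) 3, ∀ γ : Γ',
      τ (S.σ i z) = γ • S'.σ j w → ∃ θ : Cm d → Cm d, AnalyticAt ℂ θ z ∧ θ z = w ∧
        ∀ᶠ u in 𝓝 z, τ (S.σ i u) = γ • S'.σ j (θ u))
    (h2 : ∀ j i, ∀ w ∈ ball (0 : Cm d) 3, ∀ z ∈ ball (0 : Cm d) 3, ∀ γ : Γ,
      τ.symm (S'.σ j w) = γ • S.σ i z → ∃ θ : Cm d → Cm d, AnalyticAt ℂ θ w ∧ θ w = z ∧
        ∀ᶠ u in 𝓝 w, τ.symm (S'.σ j u) = γ • S.σ i (θ u))
    {r : ℕ} {i : Fin S.N} {z : Cm d} (hz : z ∈ ball (0 : Cm d) 3) (h : S.GaussAt r i z) :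
    ∃ j, ∃ w ∈ ball (0 : Cm d) 3, S'.GaussAt r j w := by
  obtain ⟨h, hh, h0, hs⟩ := h
  obtain ⟨γ, j, w, hw, he⟩ := S'.cover (τ (S.σ i z))
  have hw3 : w ∈ ball (0 : Cm d) 3 := H603.K.Sh.mem3 hw
  obtain ⟨θ, a1, a2, a3⟩ := h1 i j z hz w hw3 γ he.symm
  -- the functions on `E'`
  have hh' : ∀ k a, ∃ b, Add S' (fun e => h k (τ.symm e) a) b := by
    intro k a
    obtain ⟨b, hb⟩ := hh k a
    refine ⟨fun γ' => b (ρ.symm γ'), fun j w hw => ?_, fun γ' e => ?_⟩
    · obtain ⟨γ, i, z, hz, he⟩ := S.cover (τ.symm (S'.σ j w))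
      have hz3 : z ∈ ball (0 : Cm d) 3 := H603.K.Sh.mem3 hz
      obtain ⟨θ, b1, b2, b3⟩ := h2 j i w hw z hz3 γ he.symm
      have b4 : (fun u => h k (τ.symm (S'.σ j u)) a) =ᶠ[𝓝 w]
          fun u => h k (S.σ i (θ u)) a + b γ := by
        filter_upwards [b3] with u hu
        rw [hu]
        exact hb.add γ _
      have b5 : AnalyticAt ℂ (fun u => h k (S.σ i u) a) (θ w) := by
        rw [b2]
        exact H603.K.add_analyticAt hb i hz3
      have b6 : AnalyticAt ℂ (fun u => h k (S.σ i (θ u)) a) w :=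
        AnalyticAt.comp (f := θ) (g := fun u => h k (S.σ i u) a) b5 b1
      exact ((b6.add analyticAt_const).congr b4.symm).differentiableAt.differentiableWithinAt
    · have b7 : τ.symm (γ' • e) = ρ.symm γ' • τ.symm e := by
        rw [Homeomorph.symm_apply_eq, hρ, ρ.apply_symm_apply, τ.apply_symm_apply]
      simp only [b7]
      exact hb.add _ _
  have hmin : ∀ k, S.minor (h k) i =ᶠ[𝓝 z]
      fun u => (jac θ u).det * S'.minor (fun e => h k (τ.symm e)) j (θ u) := by
    intro k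
    choose b hb using hh' k
    have c1 : ∀ᶠ u in 𝓝 z, θ u ∈ ball (0 : Cm d) 3 :=
      a1.continuousAt.eventually (by rw [a2]; exact isOpen_ball.mem_nhds hw3)
    filter_upwards [a3.eventually_nhds, a1.eventually_analyticAt, c1] with u hu hθ hub
    have c2 : (fun v => h k (S.σ i v)) =ᶠ[𝓝 u]
        fun v a => h k (τ.symm (S'.σ j (θ v))) a + b a γ := by
      filter_upwards [hu] with v hv
      funext a
      have c3 := (hb a).add γ (S'.σ j (θ v))
      rw [← hv, τ.symm_apply_apply] at c3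
      exact c3
    rw [minor_eq', mnr_congr c2]
    exact mnr_comp (h := fun w => h k (τ.symm (S'.σ j w))) (c := fun a => b a γ)
      hθ.differentiableAt (fun a => (H603.K.add_analyticAt (hb a) j hub).differentiableAt) id
  have h0' : (jac θ z).det * S'.minor (fun e => h 0 (τ.symm e)) j w ≠ 0 := by
    have := (hmin 0).self_of_nhds
    simp only at this
    rw [a2] at this
    rw [← this]
    exact h0
  have hdet : (jac θ z).det ≠ 0 := left_ne_zero_of_mul h0'
  have h0'' : S'.minor (fun e => h 0 (τ.symm e)) j w ≠ 0 := right_ne_zero_of_mul h0'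
  refine ⟨j, w, hw3, fun k e => h k (τ.symm e), hh', h0'', fun y => ?_⟩
  obtain ⟨ξ, hξ⟩ := hs y
  refine ⟨fderiv ℂ θ z ξ, ?_⟩
  rw [← hξ]
  funext k
  have hQ : DifferentiableAt ℂ (fun u => S'.minor (fun e => h k.succ (τ.symm e)) j u /
      S'.minor (fun e => h 0 (τ.symm e)) j u) w := by
    simp only [div_eq_mul_inv]
    exact (analyticAt_minor (hh' k.succ) j hw3).differentiableAt.mul
      ((analyticAt_minor (hh' 0) j hw3).differentiableAt.inv h0'')
  have hd : ∀ᶠ u in 𝓝 z, (jac θ u).det ≠ 0 :=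
    (analyticAt_det fun l k => analyticAt_jac a1 l k).continuousAt.eventually_ne hdet
  have hq : (fun u => S.minor (h k.succ) i u / S.minor (h 0) i u) =ᶠ[𝓝 z] fun u =>
      S'.minor (fun e => h k.succ (τ.symm e)) j (θ u) /
        S'.minor (fun e => h 0 (τ.symm e)) j (θ u) := by
    filter_upwards [hmin k.succ, hmin 0, hd] with u e1 e2 e3
    rw [e1, e2, mul_div_mul_left _ _ e3]
  have hc : HasFDerivAt (fun u => S'.minor (fun e => h k.succ (τ.symm e)) j (θ u) /
        S'.minor (fun e => h 0 (τ.symm e)) j (θ u)) ((fderiv ℂ (fun u =>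
          S'.minor (fun e => h k.succ (τ.symm e)) j u /
            S'.minor (fun e => h 0 (τ.symm e)) j u) w).comp (fderiv ℂ θ z)) z :=
    HasFDerivAt.comp z (g := fun u => S'.minor (fun e => h k.succ (τ.symm e)) j u /
      S'.minor (fun e => h 0 (τ.symm e)) j u) (by rw [a2]; exact hQ.hasFDerivAt)
      a1.differentiableAt.hasFDerivAt
  show _ = fderiv ℂ (fun u => S.minor (h k.succ) i u / S.minor (h 0) i u) z ξ
  rw [hq.fderiv_eq, hc.fderiv]
  rfl

end Basis

section Family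
variable {p d : ℕ} {E Γ : Type} [TopologicalSpace E] [Group Γ] [MulAction Γ E]

/-- **KDEG**, local part. -/
theorem gauss_analytic [SimplyConnectedSpace E] [ContinuousConstSMul Γ E] (𝓕 : Fam p d E Γ) {g : ℕ}
    {T' : Set (Cm p)} (hT' : T' ⊆ 𝓕.T) {F : Cm p → E → Fin g → ℂ} {c : Cm p → Γ → Fin g → ℂ}
    (hb : ∀ (t : Cm p) (ht : t ∈ T'), IsBas (𝓕.at t (hT' ht)) (F t) (c t))
    (hF : ∀ i, ∀ t ∈ T', ∀ z ∈ ball (0 : Cm d) 3, ∀ j,
      AnalyticAt ℂ (fun q : Cm p × Cm d => F q.1 (𝓕.σ i q.1 q.2) j) (t, z)) (r : ℕ) :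
    ∃ (ι : Type) (P : ι → Cm p → ℂ), (∀ a, ∀ t ∈ T', AnalyticAt ℂ (P a) t) ∧
      ∀ (t : Cm p) (ht : t ∈ T'), (¬ ∃ i, ∃ z ∈ ball (0 : Cm d) 3,
        (𝓕.at t (hT' ht)).GaussAt r i z) ↔ ∀ a, P a t = 0 := by
  refine ⟨Fin 𝓕.N × (ball (0 : Cm d) 3) × (Fin (r + 1) → (Fin d → Fin g)) × (Fin r → Fin d),
    fun a t => Wr (fun k => mnr (fun z => F t (𝓕.σ a.1 t z)) (a.2.2.1 k)) a.2.2.2 a.2.1.1, ?_, ?_⟩
  · rintro ⟨i, z, s, m⟩ t ht
    have h1 : AnalyticAt ℂ (fun q : Cm p × Cm d =>
        Wr (fun k => mnr (fun z => F q.1 (𝓕.σ i q.1 z)) (s k)) m q.2) (t, z.1) := by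
      refine analyticAt_det fun a b => ?_
      have h2 := analyticAt_mnr₂ (H := fun q : Cm p × Cm d => F q.1 (𝓕.σ i q.1 q.2))
        (fun j => hF i t ht z.1 z.2 j) (s a)
      refine Fin.cases ?_ (fun b => ?_) b
      · exact h2
      · exact analyticAt_dd₂ h2 (m b)
    have h2 : AnalyticAt ℂ (fun t : Cm p => (t, z.1)) t := by fun_prop
    exact AnalyticAt.comp (f := fun t : Cm p => (t, z.1)) h1 h2
  · intro t ht
    push Not
    constructor
    · rintro h ⟨i, z, s, m⟩
      by_contra hcon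
      exact h i z.1 z.2 ((gaussAt_iff (hb t ht) z.2).2 ⟨s, m, hcon⟩)
    · intro h i z hz h1
      obtain ⟨s, m, hs⟩ := (gaussAt_iff (hb t ht) hz).1 h1
      exact hs (h ⟨i, ⟨z, hz⟩, s, m⟩)

end Family

end Vale.Agent.P281.H969.K
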