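import Vale.Agent.P281.H969.K.Et
import Vale.Agent.P281.H64.TK.G2e
import Vale.Agent.P281.H64.TK.SpecN

/-!
# P281, project T-KN, block KN4 (helper969): the forms of rank `0`
-/

open Set Filter Metric Module MeasureTheory Vale.Agent.P281 Vale.Agent.P281.H713
open Vale.Agent.P272.K (Chart At IsKahler)
open scoped Topology ContDiff Manifold ComplexConjugate NNReal

set_option linter.unusedSectionVars false

noncomputable section

namespace Vale.Agent.P281.H969.K

open H603.K H864.K H64.TK
open Vale.Agent.P281.H64 (Cm Mark)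

section
variable {d : ℕ} {E Γ : Type} [TopologicalSpace E] [T2Space E] [SimplyConnectedSpace E] [Group Γ]
  [MulAction Γ E] [ContinuousConstSMul Γ E] {S : Sheets d E Γ} {g : ℕ} {F : E → Fin g → ℂ}
  {c : Γ → Fin g → ℂ}

/-- an additive map in terms of a basis -/
theorem lin_of_bas (hbas : IsBas S F c)
    (hC2 : ∀ (h : E → ℂ) (c : Γ → ℂ), Add S h c → (∀ γ, (c γ).re = 0) → ∀ e e', h e = h e')
    {H : E → Cm d} (hH : ∀ a, ∃ b, Add S (fun e => H e a) b) :
    ∃ (s : Fin d → Fin g → ℂ) (b : Cm d), ∀ e a, H e a = ∑ j, s a j * F e j + b a := by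
  choose b hb using hH
  choose s hs using fun a => hbas.span _ _ (hb a)
  obtain ⟨e₀⟩ : Nonempty E := inferInstance
  refine ⟨s, fun a => H e₀ a - ∑ j, s a j * F e₀ j, fun e a => ?_⟩
  have h1 := Add.sum hbas.add (s a)
  have h2 : Add S (fun e => H e a) (fun γ => ∑ j, s a j * c γ j) := by
    have h3 : b a = fun γ => ∑ j, s a j * c γ j := funext fun γ => hs a γ
    rw [← h3]
    exact hb a
  have h4 := h2.diff_const hC2 h1 e e₀
  linear_combination h4

/-- the matrix of the derivatives -/
def dm (S : Sheets d E Γ) (F : E → Fin g → ℂ) (i : Fin S.N) (z : Cm d) :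
    Matrix (Fin g) (Fin d) ℂ :=
  Matrix.of fun j k => fderiv ℂ (fun u => F (S.σ i u) j) z (Pi.single k 1)

theorem minor_dm (H : E → Cm d) (i : Fin S.N) (z : Cm d) : S.minor H i z = (dm S H i z).det := rfl

theorem dm_lin (hF : ∀ j, ∃ b, Add S (fun e => F e j) b) {H : E → Cm d} {s : Fin d → Fin g → ℂ}
    {b : Cm d} (hs : ∀ e a, H e a = ∑ j, s a j * F e j + b a) {i : Fin S.N} {z : Cm d}
    (hz : z ∈ ball (0 : Cm d) 3) : dm S H i z = Matrix.of s * dm S F i z := by
  ext a k
  rw [Matrix.mul_apply]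
  simp only [dm, Matrix.of_apply]
  have hd : ∀ j, DifferentiableAt ℂ (fun u => F (S.σ i u) j) z := fun j => by
    obtain ⟨b, hb⟩ := hF j
    exact (add_analyticAt hb i hz).differentiableAt
  have h1 : (fun u => H (S.σ i u) a) = fun u => ∑ j, s a j * F (S.σ i u) j + b a :=
    funext fun u => hs _ a
  rw [h1, fderiv_add_const]
  have h2 : HasFDerivAt (fun u => ∑ j, s a j * F (S.σ i u) j)
      (∑ j, s a j • fderiv ℂ (fun u => F (S.σ i u) j) z) z :=
    HasFDerivAt.fun_sum fun j _ => (hd j).hasFDerivAt.const_mul (s a j)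
  rw [h2.fderiv]
  simp

/-- **maximal Albanese dimension and constant Gauss map**: the Albanese torus has dimension `d` -/
theorem g_eq (hbas : IsBas S F c)
    (hC2 : ∀ (h : E → ℂ) (c : Γ → ℂ), Add S h c → (∀ γ, (c γ).re = 0) → ∀ e e', h e = h e')
    {i : Fin S.N} {z : Cm d} (hz : z ∈ ball (0 : Cm d) 3) (h0 : S.GaussAt 0 i z)
    (h1 : ∀ (i : Fin S.N), ∀ z ∈ ball (0 : Cm d) 3, ¬ S.GaussAt 1 i z) : g = d := by
  obtain ⟨h, hh, hm, -⟩ := h0
  set H := h 0 with hHdef
  have hH := hh 0
  have hFadd : ∀ j, ∃ b, Add S (fun e => F e j) b := fun j => ⟨_, hbas.add j⟩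
  have hmz : S.minor H i z ≠ 0 := hm
  apply le_antisymm
  · -- `g ≤ d`
    choose b hb using hH
    have hMan : ∀ v ∈ ball (0 : Cm d) 3, ∀ (u : E → Cm d), (∀ a, ∃ b, Add S (fun e => u e a) b) →
        AnalyticAt ℂ (S.minor u i) v := fun v hv u hu => minor_analyticAt hu i hv
    -- the coefficients
    have key : ∀ j, ∃ t : Fin d → ℂ, ∀ γ, c γ j = ∑ a, t a * b a γ := by
      intro j
      set u : E → ℂ := fun e => F e j with hu
      have hua : Add S u (fun γ => c γ j) := hbas.add j
      set Hu : Fin d → E → Cm d := fun a e => Function.update (H e) a (u e) with hHu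
      have hHua : ∀ a a', ∃ b, Add S (fun e => Hu a e a') b := by
        intro a a'
        by_cases haa : a' = a
        · subst haa
          refine ⟨fun γ => c γ j, ?_⟩
          have : (fun e => Hu a' e a') = u := by
            funext e
            simp [hHu]
          rw [this]
          exact hua
        · refine ⟨b a', ?_⟩
          have : (fun e => Hu a e a') = fun e => H e a' := by
            funext e
            simp [hHu, haa]
          rw [this]
          exact hb a'
      set R : Fin d → Cm d → ℂ := fun a v => S.minor (Hu a) i v / S.minor H i v with hR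
      -- a ball around `z`
      have hne : ∀ᶠ v in 𝓝 z, S.minor H i v ≠ 0 :=
        (hMan z hz H fun a => ⟨b a, hb a⟩).continuousAt.eventually_ne hmz
      obtain ⟨ρ, hρ, hball⟩ := Metric.eventually_nhds_iff_ball.1
        (hne.and (isOpen_ball.mem_nhds hz))
      have hRan : ∀ a, ∀ v ∈ ball z ρ, AnalyticAt ℂ (R a) v := fun a v hv =>
        (hMan v (hball v hv).2 _ (hHua a)).div
          (hMan v (hball v hv).2 H fun a => ⟨b a, hb a⟩) (hball v hv).1
      have hRd : ∀ a, ∀ v ∈ ball z ρ, fderiv ℂ (R a) v = 0 := by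
        intro a v hv
        by_contra hcon
        refine h1 i v (hball v hv).2 ⟨![H, Hu a], ?_, (hball v hv).1, ?_⟩
        · intro k
          refine Fin.cases ?_ (fun k => ?_) k
          · exact fun a => ⟨b a, hb a⟩
          · have : k = 0 := Subsingleton.elim _ _
            subst this
            exact hHua a
        · intro y
          obtain ⟨ξ, hξ⟩ : ∃ ξ, fderiv ℂ (R a) v ξ ≠ 0 := by
            by_contra h2
            push Not at h2
            exact hcon (ContinuousLinearMap.ext h2)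
          refine ⟨(y 0 / fderiv ℂ (R a) v ξ) • ξ, ?_⟩
          funext k
          have hk : k = 0 := Subsingleton.elim _ _
          subst hk
          show fderiv ℂ (R a) v ((y 0 / fderiv ℂ (R a) v ξ) • ξ) = y 0
          rw [map_smul, smul_eq_mul, div_mul_cancel₀ _ hξ]
      have hconst : ∀ a, ∀ v ∈ ball z ρ, R a v = R a z := by
        intro a v hv
        exact isOpen_ball.is_const_of_fderiv_eq_zero (convex_ball z ρ).isPreconnected
          (fun w hw => (hRan a w hw).differentiableAt.differentiableWithinAt)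
          (fun w hw => hRd a w hw) hv (mem_ball_self hρ)
      -- Cramer
      have hcram : ∀ v ∈ ball z ρ, fderiv ℂ (fun w => u (S.σ i w)) v =
          ∑ a, R a z • fderiv ℂ (fun w => H (S.σ i w) a) v := by
        intro v hv
        set M := dm S H i v with hM
        have hMdet : M.det ≠ 0 := (hball v hv).1
        set w : Fin d → ℂ := fun k => fderiv ℂ (fun w => u (S.σ i w)) v (Pi.single k 1) with hw
        have hupd : ∀ a, S.minor (Hu a) i v = (M.updateRow a w).det := by
          intro a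
          rw [minor_dm]
          congr 1
          ext a' k
          by_cases haa : a' = a
          · subst haa
            rw [Matrix.updateRow_self]
            simp only [dm, Matrix.of_apply, hw]
            have : (fun u_1 => Hu a' (S.σ i u_1) a') = fun w => u (S.σ i w) := by
              funext e
              simp [hHu]
            rw [this]
          · rw [Matrix.updateRow_ne haa]
            simp only [dm, Matrix.of_apply, hM]
            have : (fun u_1 => Hu a (S.σ i u_1) a') = fun w => H (S.σ i w) a' := by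
              funext e
              simp [hHu, haa]
            rw [this]
        have hc1 := Matrix.mulVec_cramer M.transpose w
        have hc2 : ∀ k, fderiv ℂ (fun w => u (S.σ i w)) v (Pi.single k 1) =
            ∑ a, R a z * fderiv ℂ (fun w => H (S.σ i w) a) v (Pi.single k 1) := by
          intro k
          have h3 := congrFun hc1 k
          rw [Matrix.det_transpose, Pi.smul_apply, smul_eq_mul] at h3
          have h4 : ∑ a, M a k * (M.updateRow a w).det = M.det * w k := by
            rw [← h3]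
            show _ = ∑ a, M.transpose k a * _
            refine Finset.sum_congr rfl fun a _ => ?_
            rw [Matrix.cramer_transpose_apply]
            rfl
          have h5 : ∀ a, R a z * M a k = M a k * (M.updateRow a w).det / M.det := by
            intro a
            rw [← hconst a v hv]
            simp only [hR]
            rw [hupd a, show S.minor H i v = M.det from rfl]
            ring
          show w k = ∑ a, R a z * M a k
          rw [Finset.sum_congr rfl fun a _ => h5 a, ← Finset.sum_div, h4,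
            mul_div_cancel_left₀ _ hMdet]
        apply ContinuousLinearMap.coe_injective
        refine LinearMap.pi_ext' fun k => LinearMap.ext_ring ?_
        have h6 := hc2 k
        simpa using h6
      have hadd : Add S (fun e => ∑ a, R a z * H e a) (fun γ => ∑ a, R a z * b a γ) :=
        Add.sum (F := H) (c := fun γ a => b a γ) hb fun a => R a z
      have hdiff : Add S (fun e => (-1) * (∑ a, R a z * H e a) + u e)
          (fun γ => (-1) * (∑ a, R a z * b a γ) + c γ j) := hadd.lin hua (-1)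
      have hder : ∀ v ∈ ball z ρ, fderiv ℂ (fun w => (-1) * (∑ a, R a z * H (S.σ i w) a) +
          u (S.σ i w)) v = 0 := by
        intro v hv
        have hv3 := (hball v hv).2
        have hd1 : ∀ a, DifferentiableAt ℂ (fun w => H (S.σ i w) a) v := fun a =>
          (add_analyticAt (hb a) i hv3).differentiableAt
        have hd2 : DifferentiableAt ℂ (fun w => u (S.σ i w)) v :=
          (add_analyticAt hua i hv3).differentiableAt
        have h7 : HasFDerivAt (fun w => ∑ a, R a z * H (S.σ i w) a)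
            (∑ a, R a z • fderiv ℂ (fun w => H (S.σ i w) a) v) v :=
          HasFDerivAt.fun_sum fun a _ => (hd1 a).hasFDerivAt.const_mul (R a z)
        have h8 := (h7.const_mul (-1)).add hd2.hasFDerivAt
        have h9 := h8.fderiv
        refine h9.trans ?_
        rw [hcram v hv]
        refine ContinuousLinearMap.ext fun ξ => ?_
        show (-1 : ℂ) * (∑ a, R a z • fderiv ℂ (fun w => H (S.σ i w) a) v) ξ +
          (∑ a, R a z • fderiv ℂ (fun w => H (S.σ i w) a) v) ξ = 0
        ring
      have hev : ∀ᶠ e in 𝓝 (S.σ i z), (-1) * (∑ a, R a z * H e a) + u e =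
          (-1) * (∑ a, R a z * H (S.σ i z) a) + u (S.σ i z) := by
        rw [← S.map_nhds i z hz, eventually_map]
        filter_upwards [ball_mem_nhds z hρ] with v hv
        refine isOpen_ball.is_const_of_fderiv_eq_zero (𝕜 := ℂ)
          (f := fun w => (-1) * (∑ a, R a z * H (S.σ i w) a) + u (S.σ i w))
          (convex_ball z ρ).isPreconnected (fun w hw => ?_) (fun w hw => hder w hw) hv
          (mem_ball_self hρ)
        exact (add_analyticAt hdiff i (hball w hw).2).differentiableAt.differentiableWithinAt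
      have hall : ∀ e, (-1) * (∑ a, R a z * H e a) + u e =
          (-1) * (∑ a, R a z * H (S.σ i z) a) + u (S.σ i z) := fun e =>
        const_of_eventually hdiff hev e
      refine ⟨fun a => R a z, fun γ => ?_⟩
      have h10 := hdiff.per_zero (fun e e' => by rw [hall e, hall e']) γ
      linear_combination h10
    choose t ht using key
    by_contra hcon
    push Not at hcon
    -- a linear relation
    obtain ⟨s, hs0, hs⟩ : ∃ s : Fin g → ℂ, s ≠ 0 ∧ ∀ a, ∑ j, s j * t j a = 0 := by
      set T : (Fin g → ℂ) →ₗ[ℂ] (Fin d → ℂ) := Matrix.toLin' (Matrix.of fun a j => t j a) with hT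
      have hk : LinearMap.ker T ≠ ⊥ := by
        apply LinearMap.ker_ne_bot_of_finrank_lt
        simpa using hcon
      obtain ⟨s, hs1, hs2⟩ := (Submodule.ne_bot_iff _).1 hk
      refine ⟨s, hs2, fun a => ?_⟩
      have h3 := congrFun (LinearMap.mem_ker.1 hs1) a
      rw [hT, Matrix.toLin'_apply] at h3
      have h4 : ∑ j, t j a * s j = 0 := h3
      rw [← h4]
      exact Finset.sum_congr rfl fun j _ => mul_comm _ _
    apply hs0
    refine hbas.indep s fun γ => ?_
    calc ∑ j, s j * c γ j = ∑ j, s j * ∑ a, t j a * b a γ :=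
          Finset.sum_congr rfl fun j _ => by rw [ht j γ]
      _ = ∑ a, (∑ j, s j * t j a) * b a γ := by
          simp only [Finset.mul_sum, Finset.sum_mul]
          rw [Finset.sum_comm]
          exact Finset.sum_congr rfl fun _ _ => Finset.sum_congr rfl fun _ _ => by ring
      _ = 0 := by simp [hs]
  · -- `d ≤ g`
    obtain ⟨s, b, hsb⟩ := lin_of_bas hbas hC2 hH
    have h2 := dm_lin hFadd hsb (i := i) hz
    have h3 : IsUnit (dm S H i z) := (Matrix.isUnit_iff_isUnit_det _).2 (isUnit_iff_ne_zero.2 hmz)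
    have h4 := Matrix.rank_of_isUnit _ h3
    rw [h2] at h4
    have h5 := Matrix.rank_mul_le_right (Matrix.of s) (dm S F i z)
    have h6 := (dm S F i z).rank_le_card_height
    rw [h4] at h5
    simp only [Fintype.card_fin] at h5 h6
    exact h5.trans h6

end

variable {p d : ℕ} {Z Y : Type} [TopologicalSpace Z] [T2Space Z] [ChartedSpace (Cm (p + d)) Z]
  [IsManifold 𝓘(ℂ, Cm (p + d)) ω Z] [TopologicalSpace Y] [T2Space Y] [ChartedSpace (Cm p) Y]
  [IsManifold 𝓘(ℂ, Cm p) ω Y] {f : Z → Y}
  {w : Chart (p + d) Z → Cm (p + d) → Matrix (Fin (p + d)) (Fin (p + d)) ℂ} {n g : ℕ}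

/-- generically étale -/
theorem gen {B : Matrix (Fin n) (Fin n) ℝ} {J : (Fin d ⊕ Fin d → Fin n) → ℝ}
    {L : DLoc f w B J d} (I : Inputs) (hd : 0 < d) (hn : n = 2 * d)
    (hf : ContMDiff 𝓘(ℂ, Cm (p + d)) 𝓘(ℂ, Cm p) ω f) (hw : IsKahler w)
    (D : (Fin n → ℝ) ≃L[ℝ] EuclideanSpace ℂ (Fin d)) {y : Y} (hy : y ∈ L.U)
    (hN : NDeg (p + d) p d 0 f y) :
    ∃ (q : (Fin d → ℂ) → Z) (v₀ : Fin d → ℂ),
      ContMDiffAt 𝓘(ℂ, Fin d → ℂ) 𝓘(ℂ, Cm (p + d)) ω q v₀ ∧ (∀ᶠ v in 𝓝 v₀, f (q v) = y) ∧
      ∀ h : (Fin d → ℂ) → EuclideanSpace ℂ (Fin d), ContDiffAt ℂ ω h v₀ →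
      (∀ᶠ v in 𝓝 v₀, IsCongr (L.π D y) (L.α (q v)) (h v)) → minor Et.pr h v₀ ≠ 0 := by
  obtain ⟨i, z, hz, hG⟩ := L.gauss I hd hf hw hy hN
  have hz3 : z ∈ ball (0 : Cm d) 3 := Sh.mem3 hz
  have ht := L.hT' hy.2
  have hK := kah_fib L.kfam ht
  have hC2 := (I.c2 d L.E L.Γ (L.sh hy) _ hd hK).2
  obtain ⟨hG, hGa, hG0, -⟩ := hG
  have hbas := L.bas _ hy.2
  obtain ⟨s, b, hsb⟩ := lin_of_bas hbas hC2 (hGa 0)
  refine ⟨fun v => L.q (L.χ y) (L.𝓕.σ i (L.χ y) v), z,
    contMDiffAt_slice (L.model.hol i _ ht z hz3),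
    Eventually.of_forall fun v => by rw [L.model.fib _ ht, L.left_inv hy], ?_⟩
  intro h hh hc
  have hconst := DLoc.slice_const I.f2 hd hn D hy i hz3 hh.continuousAt hc
  have h1 : h =ᶠ[𝓝 z] fun u => (WithLp.toLp 2 (L.F (L.χ y) (L.𝓕.σ i (L.χ y) u)) :
      EuclideanSpace ℂ (Fin d)) + (h z - WithLp.toLp 2 (L.F (L.χ y) (L.𝓕.σ i (L.χ y) z))) := by
    filter_upwards [hconst] with u hu
    rw [← hu]
    abel
  have hfd : fderiv ℂ h z = fderiv ℂ (fun u => (WithLp.toLp 2 (L.F (L.χ y)
      (L.𝓕.σ i (L.χ y) u)) : EuclideanSpace ℂ (Fin d))) z := by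
    rw [h1.fderiv_eq, fderiv_add_const]
  rw [H64.TK.minor_congr Et.pr hfd]
  have h2 := dm_lin (fun j => ⟨_, hbas.add j⟩) hsb (i := i) hz3
  have h3 : (L.sh hy).minor (hG 0) i z = (Matrix.of s).det *
      (dm (L.sh hy) (L.F (L.χ y)) i z).det := by
    have h3' : (L.sh hy).minor (hG 0) i z = (dm (L.sh hy) (hG 0) i z).det := rfl
    have h3'' := congrArg Matrix.det h2
    rw [Matrix.det_mul] at h3''
    exact h3'.trans h3''
  have h4 : (dm (L.sh hy) (L.F (L.χ y)) i z).det ≠ 0 := fun h5 => hG0 (by rw [h3, h5, mul_zero])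
  have h5 : minor Et.pr (fun u => (WithLp.toLp 2 (L.F (L.χ y) (L.𝓕.σ i (L.χ y) u)) :
      EuclideanSpace ℂ (Fin d))) z = (dm (L.sh hy) (L.F (L.χ y)) i z).det := by
    have hFd : DifferentiableAt ℂ (fun u => (WithLp.toLp 2 (L.F (L.χ y)
        (L.𝓕.σ i (L.χ y) u)) : EuclideanSpace ℂ (Fin d))) z :=
      (PiLp.continuousLinearEquiv 2 ℂ (fun _ : Fin d => ℂ)).symm.differentiableAt.comp z
        (differentiableAt_pi.2 fun j => (add_analyticAt (hbas.add j) i hz3).differentiableAt)
    rw [minor]
    congr 1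
    ext j k
    simp only [Matrix.of_apply, dm]
    have h6 : HasFDerivAt (fun u => (Et.pr j) (WithLp.toLp 2 (L.F (L.χ y)
        (L.𝓕.σ i (L.χ y) u)) : EuclideanSpace ℂ (Fin d)))
        ((Et.pr j).comp (fderiv ℂ (fun u => (WithLp.toLp 2 (L.F (L.χ y)
        (L.𝓕.σ i (L.χ y) u)) : EuclideanSpace ℂ (Fin d))) z)) z :=
      (Et.pr j).hasFDerivAt.comp z hFd.hasFDerivAt
    have h7 := h6.fderiv
    have h8 := congrArg (fun L : (Fin d → ℂ) →L[ℂ] ℂ => L (Pi.single k 1)) h7
    exact h8.symm
  rw [h5]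
  exact h4

/-- **KN4** -/
theorem has0 (I : Inputs) : Has0Stmt := by
  intro p d Z Y _ _ _ _ _ _ _ _ f S w hd hf hP hconn hw hN hdeg e₀ Δ hΔ y hy
  obtain ⟨y₁, hy₁, hN1⟩ := hdeg
  obtain ⟨n, g, hn, B, J, hJ, hL⟩ := dglob I hd hf hw hP hconn hy₁
  have hg : g = d := by
    obtain ⟨L, h1, h2, h3⟩ := hL y₁ hy₁
    have hyU : y₁ ∈ L.U := ⟨h1, h2⟩
    obtain ⟨j, z, hz, hG⟩ := L.gauss I hd hf hw hyU (hN y₁ hy₁)
    refine g_eq (L.bas _ hyU.2) (I.c2 d L.E L.Γ (L.sh hyU) _ hd
      (kah_fib L.kfam (L.hT' hyU.2))).2 (Sh.mem3 hz) hG fun i v hv hG1 => ?_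
    exact hN1 ⟨L.E, L.Γ, inferInstance, inferInstance, inferInstance, inferInstance,
      inferInstance, inferInstance, L.𝓕, L.q, L.χ, L.χ y₁, L.hT' hyU.2, L.model,
      L.left_inv hyU, i, v, hv, hG1⟩
  subst hg
  choose L h1 h2 h3 using fun a : {y // y ∉ S} => hL a.1 a.2
  have h4 : ∀ a, a.1 ∈ (L a).U := fun a => ⟨h1 a, h2 a⟩
  choose hB D hD using fun a => (L a).F2_at I.f2 hd hn (h2 a)
  obtain ⟨A, hA⟩ := I.f2.2 g n g B J hd hJ
  have hE : Et.IsEtFamily (Cm (p + g)) (Cm p) g f S (Vale.Agent.P281.H64.Qf B) (fun a => (L a).U)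
      (fun a => (L a).π (D a)) (fun a => (L a).α) := by
    constructor
    · constructor
      · intro y
        constructor
        · intro hy
          exact ⟨⟨y, hy⟩, h4 ⟨y, hy⟩⟩
        · rintro ⟨a, ha⟩
          have h5 := h3 a _ ha.2
          rwa [(L a).left_inv ha] at h5
      · exact fun a => (L a).isOpen_U
      · exact fun a x y hy => DLoc.hol_π I.f2 hd hn (D a) x hy
      · exact fun a y hy => DLoc.polarized I.f2 hd hn (D a) hy
    · intro x hx
      exact DLoc.coord (L := L ⟨f x, hx⟩) hf (h4 ⟨f x, hx⟩)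
    · exact fun a x hx => DLoc.lift I.f2 hd hn hf (D a) hx
    · intro a y hy
      have hyS : y ∉ S := by
        have h5 := h3 a _ hy.2
        rwa [(L a).left_inv hy] at h5
      exact gen I hd hn hf hw (D a) hy (hN y hyS)
    · refine ⟨A, fun a q v₀ r hq hy h hh hc G hG m hm => ?_⟩
      exact DLoc.volume (L := L a) I.f2 hd hn hA (D a) hq hy hh hc hG m hm
    · intro a b y hy
      exact DLoc.change I hd hn hf hw (L a) (L b) (D a) (D b) hy.1 hy.2
  exact Et.hasForms hE (fun x => hf x) e₀ hΔ hy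

end Vale.Agent.P281.H969.K
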