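import Vale.Agent.P281.H64.TK.Spec

/-!
# P281, project T-K (helper969): 1-jets of families of functions, and their minors
-/

open Set Filter Metric MeasureTheory
open scoped Topology ContDiff ComplexConjugate

noncomputable section

namespace Vale.Agent.P281.H969.K

open Vale.Agent.P281.H64.TK
open Vale.Agent.P281.H64 (Cm Mark)

/-- If the columns of `A` are independent, some maximal minor of `A` is not `0`. -/
theorem exists_minor {ι κ : Type} [Finite ι] [Fintype κ] [DecidableEq κ] (A : Matrix ι κ ℂ)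
    (h : ∀ x : κ → ℂ, A.mulVec x = 0 → x = 0) : ∃ s : κ → ι, (A.submatrix s id).det ≠ 0 := by
  classical
  have := Fintype.ofFinite ι
  obtain ⟨μ, a, ha, hsp, hli⟩ := exists_linearIndependent' ℂ A.row
  have : Finite μ := Finite.of_injective a ha
  have := Fintype.ofFinite μ
  have h1 : A.rank = Fintype.card κ := by
    have hinj : Function.Injective A.mulVecLin := by
      rw [← LinearMap.ker_eq_bot, LinearMap.ker_eq_bot']
      intro x hx
      exact h x hx
    rw [Matrix.rank, LinearMap.finrank_range_of_inj hinj, Module.finrank_fintype_fun_eq_card]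
  have h2 : Fintype.card μ = Fintype.card κ := by
    rw [← h1, Matrix.rank_eq_finrank_span_row, ← hsp]
    exact (finrank_span_eq_card hli).symm
  obtain ⟨e⟩ : Nonempty (κ ≃ μ) := ⟨(Fintype.equivOfCardEq h2).symm⟩
  refine ⟨a ∘ e, ?_⟩
  have h3 : LinearIndependent ℂ (A.submatrix (a ∘ e) id).row := by
    have := hli.comp e e.injective
    exact this
  rw [← isUnit_iff_ne_zero, ← Matrix.isUnit_iff_isUnit_det]
  exact Matrix.linearIndependent_rows_iff_isUnit.1 h3

section Jet
variable {d : ℕ} {ι : Type}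

/-- The 1-jets `(u_I, ∂u_I/∂z_k)` of the functions `u_I` at `z`. -/
def jet (u : ι → Cm d → ℂ) (z : Cm d) : Matrix ι (Option (Fin d)) ℂ :=
  Matrix.of fun I o => o.elim (u I z) fun k => fderiv ℂ (u I) z (Pi.single k 1)

/-- The functions `u_I` generate the 1-jets at `z`. -/
def JetInj (u : ι → Cm d → ℂ) (z : Cm d) : Prop :=
  ∀ (c : ℂ) (ξ : Cm d), (∀ I, c * u I z + fderiv ℂ (u I) z ξ = 0) → c = 0 ∧ ξ = 0

theorem jet_mulVec (u : ι → Cm d → ℂ) (z : Cm d) (x : Option (Fin d) → ℂ) (I : ι) :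
    (jet u z).mulVec x I = x none * u I z + fderiv ℂ (u I) z fun k => x (some k) := by
  have h1 : (fun k => x (some k)) = ∑ k : Fin d, x (some k) • (Pi.single k (1 : ℂ) : Cm d) := by
    funext l
    simp [Finset.sum_apply, Pi.single_apply]
  rw [h1, map_sum]
  simp only [Matrix.mulVec, dotProduct, jet, Matrix.of_apply, Fintype.sum_option, Option.elim,
    map_smul, smul_eq_mul]
  rw [mul_comm (u I z)]
  congr 1
  exact Finset.sum_congr rfl fun k _ => mul_comm _ _

theorem jetInj_iff [Finite ι] {u : ι → Cm d → ℂ} {z : Cm d} :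
    JetInj u z ↔ ∃ s : Option (Fin d) → ι, ((jet u z).submatrix s id).det ≠ 0 := by
  constructor
  · intro h
    refine exists_minor _ fun x hx => ?_
    obtain ⟨h1, h2⟩ := h (x none) (fun k => x (some k)) fun I => by
      rw [← jet_mulVec, hx]
      rfl
    funext o
    cases o with
    | none => exact h1
    | some k => exact congrFun h2 k
  · rintro ⟨s, hs⟩ c ξ h
    have h1 := Matrix.mulVec_injective_of_det_ne_zero hs
    have h2 : (fun o : Option (Fin d) => o.elim c ξ) = 0 := by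
      refine h1 ?_
      funext o
      rw [Matrix.mulVec_zero]
      have h3 : ((jet u z).submatrix s id).mulVec (fun o : Option (Fin d) => o.elim c ξ) o =
          (jet u z).mulVec (fun o : Option (Fin d) => o.elim c ξ) (s o) := rfl
      rw [h3, jet_mulVec]
      exact h (s o)
    exact ⟨congrFun h2 none, funext fun k => congrFun h2 (some k)⟩

theorem JetInj.congr {u v : ι → Cm d → ℂ} {z : Cm d} (h : ∀ I, u I =ᶠ[𝓝 z] v I)
    (hu : JetInj u z) : JetInj v z := by
  intro c ξ hc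
  refine hu c ξ fun I => ?_
  rw [(h I).fderiv_eq, (h I).self_of_nhds]
  exact hc I

/-- Functions which are linear combinations of others generate fewer 1-jets. -/
theorem JetInj.of_comb {ι' : Type} [Fintype ι'] {u : ι → Cm d → ℂ} {v : ι' → Cm d → ℂ} {z : Cm d}
    (a : ι → ι' → ℂ) (hv : ∀ I, DifferentiableAt ℂ (v I) z)
    (h : ∀ I, u I =ᶠ[𝓝 z] fun w => ∑ I', a I I' * v I' w) (hu : JetInj u z) : JetInj v z := by
  intro c ξ hc
  refine hu c ξ fun I => ?_
  have h1 : HasFDerivAt (fun w => ∑ I', a I I' * v I' w) (∑ I', a I I' • fderiv ℂ (v I') z) z :=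
    HasFDerivAt.fun_sum fun I' _ => (hv I').hasFDerivAt.const_mul (a I I')
  rw [(h I).fderiv_eq, (h I).self_of_nhds, h1.fderiv]
  simp only [sum_apply, smul_apply, smul_eq_mul]
  rw [Finset.mul_sum, ← Finset.sum_add_distrib]
  refine Finset.sum_eq_zero fun I' _ => ?_
  have h2 := hc I'
  linear_combination a I I' * h2

/-- Change of variables: `v_I(w) = δ(w) u_I(θ(w))`. -/
theorem JetInj.of_change {u v : ι → Cm d → ℂ} {z : Cm d} {θ : Cm d → Cm d} {δ : Cm d → ℂ}
    (hθ : DifferentiableAt ℂ θ z) (hδ : DifferentiableAt ℂ δ z)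
    (hu : ∀ I, DifferentiableAt ℂ (u I) (θ z)) (h : ∀ I, v I =ᶠ[𝓝 z] fun w => δ w * u I (θ w))
    (hδ0 : δ z ≠ 0) (hinj : ∀ ξ, fderiv ℂ θ z ξ = 0 → ξ = 0) (hv : JetInj u (θ z)) :
    JetInj v z := by
  intro c ξ hc
  obtain ⟨h1, h2⟩ := hv (c * δ z + fderiv ℂ δ z ξ) (δ z • fderiv ℂ θ z ξ) fun I => by
    have h3 := hc I
    have h4 : HasFDerivAt (fun w => δ w * u I (θ w))
        (δ z • (fderiv ℂ (u I) (θ z)).comp (fderiv ℂ θ z) + u I (θ z) • fderiv ℂ δ z) z :=
      hδ.hasFDerivAt.mul ((hu I).hasFDerivAt.comp z hθ.hasFDerivAt)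
    rw [(h I).fderiv_eq, (h I).self_of_nhds, h4.fderiv] at h3
    simp only [add_apply, smul_apply, smul_eq_mul, ContinuousLinearMap.comp_apply] at h3
    rw [map_smul, smul_eq_mul]
    linear_combination h3
  have h3 : ξ = 0 := by
    refine hinj ξ ?_
    rcases smul_eq_zero.1 h2 with h4 | h4
    · exact absurd h4 hδ0
    · exact h4
  refine ⟨?_, h3⟩
  rw [h3, map_zero, add_zero] at h1
  rcases mul_eq_zero.1 h1 with h4 | h4
  · exact h4
  · exact absurd h4 hδ0

/-- Change of variables, in the other direction. -/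
theorem JetInj.of_change' {u v : ι → Cm d → ℂ} {z : Cm d} {θ : Cm d → Cm d} {δ : Cm d → ℂ}
    (hθ : DifferentiableAt ℂ θ z) (hδ : DifferentiableAt ℂ δ z)
    (hu : ∀ I, DifferentiableAt ℂ (u I) (θ z)) (h : ∀ I, v I =ᶠ[𝓝 z] fun w => δ w * u I (θ w))
    (hδ0 : δ z ≠ 0) (hsurj : ∀ η, ∃ ξ, fderiv ℂ θ z ξ = η) (hv : JetInj v z) :
    JetInj u (θ z) := by
  intro c η hc
  obtain ⟨ξ, hξ⟩ := hsurj ((δ z)⁻¹ • η)
  have hξ' : η = δ z • fderiv ℂ θ z ξ := by rw [hξ, smul_smul, mul_inv_cancel₀ hδ0, one_smul]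
  obtain ⟨h1, h2⟩ := hv ((c - fderiv ℂ δ z ξ) / δ z) ξ fun I => by
    have h3 := hc I
    have h4 : HasFDerivAt (fun w => δ w * u I (θ w))
        (δ z • (fderiv ℂ (u I) (θ z)).comp (fderiv ℂ θ z) + u I (θ z) • fderiv ℂ δ z) z :=
      hδ.hasFDerivAt.mul ((hu I).hasFDerivAt.comp z hθ.hasFDerivAt)
    rw [(h I).fderiv_eq, (h I).self_of_nhds, h4.fderiv]
    rw [hξ', map_smul, smul_eq_mul] at h3
    simp only [add_apply, smul_apply, smul_eq_mul, ContinuousLinearMap.comp_apply]
    have h5 : (c - fderiv ℂ δ z ξ) / δ z * (δ z * u I (θ z)) =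
        (c - fderiv ℂ δ z ξ) * u I (θ z) := by
      field_simp
    rw [h5]
    linear_combination h3
  rw [h2, map_zero, sub_zero] at h1
  refine ⟨?_, ?_⟩
  · rcases div_eq_zero_iff.1 h1 with h3 | h3
    · exact h3
    · exact absurd h3 hδ0
  · rw [hξ', h2, map_zero, smul_zero]

end Jet

theorem fderiv_eq_mulVec {d : ℕ} (θ : Cm d → Cm d) (z ξ : Cm d) :
    fderiv ℂ θ z ξ = (jac θ z).mulVec ξ := by
  have h1 : ξ = ∑ k : Fin d, ξ k • (Pi.single k (1 : ℂ) : Cm d) := by
    funext l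
    simp [Finset.sum_apply, Pi.single_apply]
  conv_lhs => rw [h1, map_sum]
  funext l
  simp only [Finset.sum_apply, map_smul, Pi.smul_apply, smul_eq_mul, Matrix.mulVec, dotProduct,
    jac, Matrix.of_apply]
  exact Finset.sum_congr rfl fun k _ => mul_comm _ _

section Minors
variable {d g : ℕ}

/-- The `d`-fold minors of the differential of `h : ℂ^d → ℂ^g`. -/
def mnr (h : Cm d → Fin g → ℂ) (I : Fin d → Fin g) (z : Cm d) : ℂ :=
  (Matrix.of fun j k => dd k (fun z => h z (I j)) z).det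

theorem mnr_congr {h h' : Cm d → Fin g → ℂ} {z : Cm d} (e : h =ᶠ[𝓝 z] h') (I : Fin d → Fin g) :
    mnr h I z = mnr h' I z := by
  unfold mnr dd
  congr 2
  funext j k
  have h1 : (fun z => h z (I j)) =ᶠ[𝓝 z] fun z => h' z (I j) := e.mono fun w hw => by
    show h w (I j) = h' w (I j)
    rw [hw]
  rw [h1.fderiv_eq]

/-- Minors of `h ∘ θ + c`. -/
theorem mnr_comp {h : Cm d → Fin g → ℂ} {c : Fin g → ℂ} {θ : Cm d → Cm d} {z : Cm d}
    (hθ : DifferentiableAt ℂ θ z) (hh : ∀ j, DifferentiableAt ℂ (fun w => h w j) (θ z))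
    (I : Fin d → Fin g) :
    mnr (fun w j => h (θ w) j + c j) I z = (jac θ z).det * mnr h I (θ z) := by
  rw [mul_comm, mnr, mnr, ← Matrix.det_mul]
  congr 1
  ext j k
  have h1 : HasFDerivAt (fun w => h (θ w) (I j) + c (I j))
      ((fderiv ℂ (fun w => h w (I j)) (θ z)).comp (fderiv ℂ θ z)) z :=
    ((hh (I j)).hasFDerivAt.comp z hθ.hasFDerivAt).add_const (c (I j))
  simp only [Matrix.of_apply, Matrix.mul_apply, dd, jac]
  rw [h1.fderiv, ContinuousLinearMap.comp_apply]
  have h2 : fderiv ℂ θ z (Pi.single k 1) = ∑ l : Fin d,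
      (fderiv ℂ θ z (Pi.single k 1) l) • (Pi.single l (1 : ℂ) : Cm d) := by
    funext l
    simp [Finset.sum_apply, Pi.single_apply]
  rw [h2, map_sum]
  refine Finset.sum_congr rfl fun l _ => ?_
  rw [map_smul, smul_eq_mul, mul_comm, ← h2]

/-- Minors of `A h + c`. -/
theorem mnr_lin {g' : ℕ} {h : Cm d → Fin g' → ℂ} {c : Fin g → ℂ} {A : Fin g → Fin g' → ℂ}
    {z : Cm d} (hh : ∀ j, DifferentiableAt ℂ (fun w => h w j) z) (I : Fin d → Fin g) :
    mnr (fun w j => (∑ l, A j l * h w l) + c j) I z =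
      ∑ K : Fin d → Fin g', (∏ j, A (I j) (K j)) * mnr h K z := by
  have h1 : (Matrix.of fun j k => dd k (fun w => (∑ l, A (I j) l * h w l) + c (I j)) z) =
      fun j => ∑ l, A (I j) l • fun k : Fin d => dd k (fun w => h w l) z := by
    funext j k
    have h2 : HasFDerivAt (fun w => (∑ l, A (I j) l * h w l) + c (I j))
        (∑ l, A (I j) l • fderiv ℂ (fun w => h w l) z) z :=
      (HasFDerivAt.fun_sum fun l _ => (hh l).hasFDerivAt.const_mul (A (I j) l)).add_const _
    simp only [Matrix.of_apply, dd]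
    rw [h2.fderiv, Finset.sum_apply, sum_apply]
    rfl
  have h2 := (Matrix.detRowAlternating (R := ℂ) (n := Fin d)).toMultilinearMap.map_sum
    (g := fun (j : Fin d) (l : Fin g') => A (I j) l • fun k : Fin d => dd k (fun w => h w l) z)
  have h3 : mnr (fun w j => (∑ l, A j l * h w l) + c j) I z =
      (Matrix.detRowAlternating (R := ℂ) (n := Fin d)).toMultilinearMap
        (fun j => ∑ l, A (I j) l • fun k : Fin d => dd k (fun w => h w l) z) := by
    rw [← h1]
    rfl
  rw [h3, h2]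
  refine Finset.sum_congr rfl fun K _ => ?_
  rw [MultilinearMap.map_smul_univ, smul_eq_mul]
  rfl

theorem analyticAt_dd {h : Cm d → ℂ} {z : Cm d} (hh : AnalyticAt ℂ h z) (k : Fin d) :
    AnalyticAt ℂ (dd k h) z := by
  have h1 := hh.fderiv
  exact ((ContinuousLinearMap.apply ℂ ℂ (Pi.single k (1 : ℂ) : Cm d)).analyticAt _).comp h1

theorem analyticAt_det {V : Type} [NormedAddCommGroup V] [NormedSpace ℂ V] {κ : Type} [Fintype κ]
    [DecidableEq κ] {M : V → Matrix κ κ ℂ} {z : V} (h : ∀ a b, AnalyticAt ℂ (fun v => M v a b) z) :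
    AnalyticAt ℂ (fun v => (M v).det) z := by
  simp only [Matrix.det_apply]
  refine Finset.analyticAt_fun_sum _ fun σ _ => ?_
  have h1 : AnalyticAt ℂ (fun v => ∏ i, M v (σ i) i) z :=
    Finset.analyticAt_fun_prod _ fun i _ => h (σ i) i
  have h2 : (fun v => Equiv.Perm.sign σ • ∏ i, M v (σ i) i) =
      fun v => ((Equiv.Perm.sign σ : ℤ) : ℂ) * ∏ i, M v (σ i) i := by
    funext v
    rw [Units.smul_def, zsmul_eq_mul]
  rw [h2]
  exact analyticAt_const.mul h1

theorem analyticAt_mnr {h : Cm d → Fin g → ℂ} {z : Cm d}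
    (hh : ∀ j, AnalyticAt ℂ (fun w => h w j) z) (I : Fin d → Fin g) :
    AnalyticAt ℂ (mnr h I) z :=
  analyticAt_det (M := fun z => Matrix.of fun j k => dd k (fun z => h z (I j)) z)
    fun j k => analyticAt_dd (hh (I j)) k

theorem analyticAt_jac {θ : Cm d → Cm d} {z : Cm d} (hθ : AnalyticAt ℂ θ z) (l k : Fin d) :
    AnalyticAt ℂ (fun w => jac θ w l k) z := by
  have h1 := hθ.fderiv
  have h2 := ((ContinuousLinearMap.apply ℂ (Cm d) (Pi.single k (1 : ℂ) : Cm d)).analyticAt _).comp h1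
  exact ((ContinuousLinearMap.proj (R := ℂ) (φ := fun _ : Fin d => ℂ) l).analyticAt _).comp h2

/-- The condition on the 1-jets of the minors does not depend on the coordinates, and it is enough to
check it for linear combinations. -/
theorem jetInj_trans {g' : ℕ} {h : Cm d → Fin g → ℂ} {h' : Cm d → Fin g' → ℂ} {θ : Cm d → Cm d}
    {z w : Cm d} (hθ : AnalyticAt ℂ θ z) (hw : θ z = w) (hdet : (jac θ z).det ≠ 0)
    (hh' : ∀ j, AnalyticAt ℂ (fun v => h' v j) w) (A : Fin g → Fin g' → ℂ) (c : Fin g → ℂ)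
    (e : ∀ᶠ u in 𝓝 z, ∀ j, h u j = (∑ l, A j l * h' (θ u) l) + c j) (hJ : JetInj (mnr h) z) :
    JetInj (mnr h') w := by
  subst hw
  have hθe : ∀ᶠ u in 𝓝 z, AnalyticAt ℂ θ u := hθ.eventually_analyticAt
  have hh'e : ∀ᶠ u in 𝓝 z, ∀ j, AnalyticAt ℂ (fun v => h' v j) (θ u) :=
    hθ.continuousAt.eventually (eventually_all.2 fun j => (hh' j).eventually_analyticAt)
  have h1 : JetInj (mnr fun u => h' (θ u)) z := by
    refine hJ.of_comb (fun I K => ∏ j, A (I j) (K j)) (fun K => ?_) fun I => ?_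
    · exact (analyticAt_mnr (fun j => AnalyticAt.comp (hh' j) hθ) K).differentiableAt
    · filter_upwards [e.eventually_nhds, hθe, hh'e] with u h1 h2 h3
      have h4 : h =ᶠ[𝓝 u] fun v j => (∑ l, A j l * h' (θ v) l) + c j := by
        filter_upwards [h1] with v hv
        funext j
        exact hv j
      rw [mnr_congr h4]
      exact mnr_lin (h := fun v => h' (θ v)) (fun j => ((h3 j).comp h2).differentiableAt) I
  refine JetInj.of_change' (δ := fun u => (jac θ u).det) hθ.differentiableAt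
    (analyticAt_det fun l k => analyticAt_jac hθ l k).differentiableAt
    (fun I => (analyticAt_mnr hh' I).differentiableAt) (fun I => ?_) hdet (fun η => ?_) h1
  · filter_upwards [hθe, hh'e] with u h2 h3
    have h4 := mnr_comp (h := h') (c := 0) h2.differentiableAt (fun j => (h3 j).differentiableAt) I
    simp only [Pi.zero_apply, add_zero] at h4
    exact h4
  · refine ⟨((jac θ z)⁻¹).mulVec η, ?_⟩
    rw [fderiv_eq_mulVec, Matrix.mulVec_mulVec,
      Matrix.mul_nonsing_inv _ (isUnit_iff_ne_zero.2 hdet), Matrix.one_mulVec]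

end Minors

end Vale.Agent.P281.H969.K
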